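import Vale.Agent.P220.R2.H562.Curve

/-!
# The arc of squared complex heights
-/

open Set Filter Topology
open scoped ContDiff

set_option linter.unusedSectionVars false

namespace Vale.Agent.P220.R2.H562

open H57 H180

variable {E : Type} [NormedAddCommGroup E] [InnerProductSpace ℝ E] [FiniteDimensional ℝ E]

theorem wte_SS {e u : E} (h : Orth e u) (z : E × E) : wt e (SS e z) = -wt e z :=
  (sw h).wtu_SS z

theorem InT_SSe {e u : E} (h : Orth e u) {z : E × E} (hz : InT e u z) : InT e u (SS e z) := by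
  have hsw : ∀ x : E, InPl e u x ↔ InPl u e x := by
    intro x
    unfold InPl
    rw [add_comm]
  have h1 : InT u e z := ⟨hz.n1, (hsw _).1 hz.p1, (hsw _).1 hz.p2, hz.o⟩
  have h2 := (sw h).InT_SS h1
  exact ⟨h2.n1, (hsw _).2 h2.p1, (hsw _).2 h2.p2, h2.o⟩

/-- **The arc.** -/
theorem exists_arc2 {e u : E} {C : Set (E × E)} {γ : ℝ → E × E} (hγ : IsCurve e u C γ)
    (h : Orth e u) (hC : ∀ z ∈ C, InT e u z) (hsym : ∀ t, SS e (γ t) = γ (Real.pi - t)) :
    ∃ c : ℝ → ℂ, IsArc c ∧ (∀ z ∈ C, ∃ τ ∈ Icc (0 : ℝ) 1, c τ = 2 * wt e z ^ 2 - 1) ∧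
      ∀ τ ∈ Icc (0 : ℝ) 1, ∃ z ∈ C, 2 * wt e z ^ 2 - 1 = c τ := by
  set V : ℝ → ℂ := fun t => wt e (γ t) with hV
  set W : ℝ → ℂ := fun t => wt u (γ t) with hW
  have hVs : ContDiff ℝ ∞ V := wt_smooth e hγ.smooth
  have hWs : ContDiff ℝ ∞ W := wt_smooth u hγ.smooth
  have hVe : ∀ t, V (-t) = V t := fun t => by
    simp only [hV]
    rw [← hγ.sym, h.wt_SS]
  have hVp : ∀ t, V (Real.pi - t) = -V t := fun t => by
    simp only [hV]
    rw [← hsym, wte_SS h]
  have hVp2 : ∀ t, V (t + Real.pi) = -V t := fun t => by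
    have h1 := hVp (-t)
    rw [hVe, sub_neg_eq_add, add_comm] at h1
    exact h1
  -- the square
  set U : ℝ → ℂ := fun t => 2 * V t ^ 2 - 1 with hU
  have hUs : ContDiff ℝ ∞ U := (contDiff_const.mul (hVs.pow 2)).sub contDiff_const
  set U2 : ℝ → ℂ := fun t => U (t / 2) with hU2
  have hU2s : ContDiff ℝ ∞ U2 := hUs.comp (contDiff_id.div_const 2)
  have hUe : ∀ t, U2 (-t) = U2 t := fun t => by
    simp only [hU2, hU]
    rw [neg_div, hVe]
  have hUp : ∀ t, U2 (t + 2 * Real.pi) = U2 t := fun t => by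
    simp only [hU2, hU]
    have : (t + 2 * Real.pi) / 2 = t / 2 + Real.pi := by ring
    rw [this, hVp2, neg_sq]
  have s1 : Sym fun t => (U2 t).re := ⟨re_smooth hU2s, fun t => by rw [hUe],
    fun t => by rw [hUp]⟩
  have s2 : Sym fun t => (U2 t).im := ⟨im_smooth hU2s, fun t => by rw [hUe],
    fun t => by rw [hUp]⟩
  obtain ⟨c₁, hc₁, hc₁'⟩ := s1.exists_cos
  obtain ⟨c₂, hc₂, hc₂'⟩ := s2.exists_cos
  set c : ℝ → ℂ := fun t => (c₁ t : ℂ) + (c₂ t : ℂ) * Complex.I with hc
  have hcs : ContDiff ℝ ∞ c := of_re_im hc₁ hc₂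
  have hcU2 : ∀ t, c ((1 - Real.cos t) / 2) = U2 t := fun t => by
    simp only [hc, hc₁', hc₂']
    exact Complex.re_add_im _
  have hcU : ∀ t, c (Real.sin t ^ 2) = U t := fun t => by
    have h1 := hcU2 (2 * t)
    have h2 : (1 - Real.cos (2 * t)) / 2 = Real.sin t ^ 2 := by
      rw [Real.cos_two_mul]
      have := Real.sin_sq_add_cos_sq t
      linarith
    rw [h2] at h1
    rw [h1]
    simp only [hU2]
    congr 1
    ring
  have hτ : ∀ x ∈ Icc (0 : ℝ) 1, Real.sin (Real.arcsin (√x)) ^ 2 = x := by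
    intro x hx
    rw [Real.sin_arcsin (by linarith [Real.sqrt_nonneg x]) (Real.sqrt_le_one.2 hx.2),
      Real.sq_sqrt hx.1]
  have hrel : ∀ t, V t ^ 2 + W t ^ 2 = 1 := fun t => h.wt_rel (hC _ (hγ.mem t))
  have hVd : ∀ t, HasDerivAt V (deriv V t) t := fun t => (hVs.differentiable (by simp) t).hasDerivAt
  have hWd : ∀ t, HasDerivAt W (deriv W t) t := fun t => (hWs.differentiable (by simp) t).hasDerivAt
  have hrel1 : ∀ t, V t * deriv V t + W t * deriv W t = 0 := by
    intro t
    have d1 := ((hVd t).pow 2).add ((hWd t).pow 2)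
    have d2 : (fun t => V t ^ 2 + W t ^ 2) = fun _ => 1 := funext hrel
    have d3 : HasDerivAt (fun t => V t ^ 2 + W t ^ 2) _ t := d1
    rw [d2] at d3
    have d4 := d3.unique (hasDerivAt_const _ _)
    simp only [Nat.cast_ofNat] at d4
    linear_combination d4 / 2
  have hV1s : ContDiff ℝ ∞ (deriv V) := ((contDiff_infty_iff_deriv (𝕜 := ℝ)).1 hVs).2
  have hW1s : ContDiff ℝ ∞ (deriv W) := ((contDiff_infty_iff_deriv (𝕜 := ℝ)).1 hWs).2
  have hV1d : ∀ t, HasDerivAt (deriv V) (deriv (deriv V) t) t := fun t =>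
    (hV1s.differentiable (by simp) t).hasDerivAt
  have hW1d : ∀ t, HasDerivAt (deriv W) (deriv (deriv W) t) t := fun t =>
    (hW1s.differentiable (by simp) t).hasDerivAt
  have hrel2 : ∀ t, deriv V t * deriv V t + V t * deriv (deriv V) t +
      (deriv W t * deriv W t + W t * deriv (deriv W) t) = 0 := by
    intro t
    have d1 := ((hVd t).mul (hV1d t)).add ((hWd t).mul (hW1d t))
    have d2 : (fun t => V t * deriv V t + W t * deriv W t) = fun _ => 0 := funext hrel1
    have d3 : HasDerivAt (fun t => V t * deriv V t + W t * deriv W t) _ t := d1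
    rw [d2] at d3
    exact d3.unique (hasDerivAt_const _ _)
  -- equality of heights
  have heq : ∀ t t', V t = V t' → Real.sin t ^ 2 = Real.sin t' ^ 2 := by
    intro t t' htt
    rcases h.eq_or_of_wt (hC _ (hγ.mem t)) (hC _ (hγ.mem t')) htt with h1 | h1
    · obtain ⟨k, hk⟩ := hγ.inj _ _ h1
      have h2 : t = t' + k * (2 * Real.pi) := by linarith
      rw [h2, Real.sin_add_int_mul_two_pi]
    · rw [hγ.sym] at h1
      obtain ⟨k, hk⟩ := hγ.inj _ _ h1
      have h2 : t = -t' + k * (2 * Real.pi) := by linarith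
      rw [h2, Real.sin_add_int_mul_two_pi, Real.sin_neg, neg_sq]
  have hcos : ∀ t, V t = 0 → Real.cos t = 0 := by
    intro t ht
    have h0 : V t = V (Real.pi - t) := by rw [hVp, ht, neg_zero]
    rcases h.eq_or_of_wt (hC _ (hγ.mem t)) (hC _ (hγ.mem (Real.pi - t))) h0 with h1 | h1
    · obtain ⟨k, hk⟩ := hγ.inj _ _ h1
      have h2 : t = Real.pi / 2 + k * Real.pi := by linarith
      rw [h2]
      rw [Real.cos_add, Real.cos_pi_div_two, Real.sin_int_mul_pi]
      ring
    · exfalso
      rw [hγ.sym] at h1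
      obtain ⟨k, hk⟩ := hγ.inj _ _ h1
      have h2 : Real.pi * (1 - 2 * (k : ℝ)) = 0 := by linarith
      rcases mul_eq_zero.1 h2 with h8 | h8
      · exact Real.pi_pos.ne' h8
      · have h9 : (1 : ℤ) = 2 * k := by
          have : (1 : ℝ) = 2 * (k : ℝ) := by linarith
          exact_mod_cast this
        omega
  refine ⟨c, ⟨hcs, ?_, ?_, ?_, ?_⟩, ?_, ?_⟩
  · have h1 := hcU 0
    have hV0 : V 0 = 1 := by
      simp only [hV, hγ.zero]
      apply Complex.ext
      · rw [wt_re]
        simp [h.v1]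
      · rw [wt_im]
        simp
    simp only [hU, hV0] at h1
    rw [Real.sin_zero] at h1
    norm_num at h1
    exact h1
  · have h1 := hcU (Real.pi / 2)
    have hV0 : V (Real.pi / 2) = 0 := by
      have h2 := hVp (Real.pi / 2)
      have h3 : Real.pi - Real.pi / 2 = Real.pi / 2 := by ring
      rw [h3] at h2
      have h4 : V (Real.pi / 2) + V (Real.pi / 2) = 0 := by
        nth_rewrite 1 [h2]
        ring
      exact add_self_eq_zero.1 h4
    simp only [hU, hV0] at h1
    rw [Real.sin_pi_div_two] at h1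
    norm_num at h1
    exact h1
  · intro x hx y hy hxy
    have ex := hτ x hx
    have ey := hτ y hy
    set t := Real.arcsin (√x)
    set t' := Real.arcsin (√y)
    rw [← ex, ← ey, hcU, hcU] at hxy
    have h1 : V t ^ 2 = V t' ^ 2 := by
      simp only [hU] at hxy
      linear_combination hxy / 2
    rw [← ex, ← ey]
    rcases sq_eq_sq_iff_eq_or_eq_neg.1 h1 with h2 | h2
    · exact heq t t' h2
    · rw [← hVp] at h2
      rw [heq t _ h2, Real.sin_pi_sub]
  · intro x hx h0
    have ex := hτ x hx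
    set t := Real.arcsin (√x)
    have hcd : ∀ y, HasDerivAt c (deriv c y) y := fun y => (hcs.differentiable (by simp) y).hasDerivAt
    have hyd : ∀ t, HasDerivAt (fun t => Real.sin t ^ 2) (2 * Real.sin t * Real.cos t) t := by
      intro t
      have := (Real.hasDerivAt_sin t).pow 2
      refine this.congr_deriv ?_
      ring
    have hUe1 : ∀ t, deriv U t = (2 * Real.sin t * Real.cos t) • deriv c (Real.sin t ^ 2) := by
      intro t
      have d1 := (hcd (Real.sin t ^ 2)).scomp t (hyd t)
      have d2 : (c ∘ fun t => Real.sin t ^ 2) = U := funext hcU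
      rw [d2] at d1
      exact d1.deriv
    have hUV : ∀ t, deriv U t = 4 * (V t * deriv V t) := by
      intro t
      have d1 := (((hVd t).pow 2).const_mul 2).sub_const 1
      have d2 : HasDerivAt U _ t := d1
      rw [d2.deriv]
      simp only [Nat.cast_ofNat]
      ring
    have hU0 : deriv U t = 0 := by rw [hUe1, ex, h0, smul_zero]
    -- the second derivative vanishes too if the sine of the doubled angle does
    have hsecond : Real.sin t * Real.cos t = 0 →
        deriv V t * deriv V t + V t * deriv (deriv V) t = 0 := by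
      intro hsc
      have hc1s : ContDiff ℝ ∞ (deriv c) := ((contDiff_infty_iff_deriv (𝕜 := ℝ)).1 hcs).2
      have hc1d : HasDerivAt (deriv c) (deriv (deriv c) (Real.sin t ^ 2)) (Real.sin t ^ 2) :=
        (hc1s.differentiable (by simp) _).hasDerivAt
      have d1 := hc1d.scomp t (hyd t)
      have d0 : HasDerivAt (fun t => 2 * Real.sin t * Real.cos t)
          (2 * Real.cos t * Real.cos t + 2 * Real.sin t * (-Real.sin t)) t :=
        ((Real.hasDerivAt_sin t).const_mul 2).mul (Real.hasDerivAt_cos t)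
      have d2 := d0.smul d1
      have d3 : deriv U = fun t => (2 * Real.sin t * Real.cos t) • deriv c (Real.sin t ^ 2) :=
        funext hUe1
      have d4 : HasDerivAt (deriv U) 0 t := by
        rw [d3]
        refine HasDerivAt.congr_deriv d2 ?_
        simp only [Function.comp_apply]
        have hsc2 : 2 * Real.sin t * Real.cos t = 0 := by rw [mul_assoc, hsc, mul_zero]
        rw [ex, h0, hsc2]
        simp
      have d5 : HasDerivAt (deriv U)
          (4 * (deriv V t * deriv V t + V t * deriv (deriv V) t)) t := by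
        have d6 : deriv U = fun t => 4 * (V t * deriv V t) := funext hUV
        rw [d6]
        exact ((hVd t).mul (hV1d t)).const_mul 4
      have d7 := d4.unique d5
      have d8 : (4 : ℂ) * (deriv V t * deriv V t + V t * deriv (deriv V) t) = 0 := d7.symm
      exact (mul_eq_zero.1 d8).resolve_left (by norm_num)
    have h1 : V t * deriv V t = 0 := by
      have := hUV t
      rw [hU0] at this
      exact (mul_eq_zero.1 this.symm).resolve_left (by norm_num)
    have h2 := hrel1 t
    rw [h1, zero_add] at h2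
    rcases mul_eq_zero.1 h1 with h3 | h3
    · -- the height vanishes
      have h4 := hsecond (by rw [hcos t h3, mul_zero])
      rw [h3, zero_mul, add_zero] at h4
      have h5 : deriv V t = 0 := mul_self_eq_zero.1 h4
      have h6 : W t ≠ 0 := by
        intro h7
        have h8 := hrel t
        rw [h3, h7] at h8
        norm_num at h8
      exact hγ.deriv_wt h hC h5 ((mul_eq_zero.1 h2).resolve_left h6)
    · rcases mul_eq_zero.1 h2 with h4 | h4
      · have hsin := hγ.sin_zero h hC h4
        have h5 := hsecond (by rw [hsin, zero_mul])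
        have h6 := hrel2 t
        rw [h5, h4, zero_mul, zero_add, add_zero] at h6
        exact hγ.deriv_wt h hC h3 (mul_self_eq_zero.1 h6)
      · exact hγ.deriv_wt h hC h3 h4
  · intro z hz
    obtain ⟨t, rfl⟩ := hγ.surj z hz
    exact ⟨Real.sin t ^ 2, ⟨sq_nonneg _, Real.sin_sq_le_one t⟩, hcU t⟩
  · intro τ hτ'
    refine ⟨γ (Real.arcsin (√τ)), hγ.mem _, ?_⟩
    change U (Real.arcsin (√τ)) = c τ
    rw [← hcU, hτ τ hτ']

end Vale.Agent.P220.R2.H562
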