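import Vale.Agent.P220.R2.H562.Grp2

/-!
# The orthogonal and the unitary case
-/

open Set Filter Topology
open scoped ContDiff

set_option linter.unusedSectionVars false

namespace Vale.Agent.P220.R2.H562

open H57 H180

variable {E : Type} [NormedAddCommGroup E] [InnerProductSpace ℝ E] [FiniteDimensional ℝ E]

/-- the isometries that preserve `L` -/
def Stab (L : Set (E × E)) : Subgroup (E ≃ₗᵢ[ℝ] E) where
  carrier := {g | ∀ z : E × E, (g z.1, g z.2) ∈ L ↔ z ∈ L}
  one_mem' := fun _ => Iff.rfl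
  mul_mem' := by
    intro g g' hg hg' z
    exact (hg (g' z.1, g' z.2)).trans (hg' z)
  inv_mem' := by
    intro g hg z
    have h1 := hg (g⁻¹ z.1, g⁻¹ z.2)
    have h2 : ∀ x, g (g⁻¹ x) = x := fun x => g.apply_symm_apply x
    rw [h2, h2] at h1
    exact h1.symm

theorem mem_Stab {L : Set (E × E)} {φ : ℝ → (E ≃ₗᵢ[ℝ] E)} {A : E → E} (h : IsOnePar φ A)
    (hinv : ∀ t, ∀ z ∈ L, (φ t z.1, φ t z.2) ∈ L) (t : ℝ) : φ t ∈ Stab L := by
  intro z
  refine ⟨fun hz => ?_, hinv t z⟩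
  have h1 := hinv (-t) _ hz
  have h2 : ∀ x, φ (-t) (φ t x) = x := fun x => by
    rw [← h.add, neg_add_cancel, h.zero]
  simp only [h2] at h1
  exact h1

theorem Stab_inv {L : Set (E × E)} : ∀ g ∈ Stab L, ∀ z ∈ L, (g z.1, g z.2) ∈ L :=
  fun _ hg z hz => (hg z).2 hz

theorem rt_add {v w : E} (ho : Orth v w) (s t : ℝ) (x : E) :
    rt v w (s + t) x = rt v w s (rt v w t x) := by
  unfold rt
  simp only [inner_add_right, inner_smul_right, ho.vv, ho.ww, ho.vw, ho.wv, Real.cos_add,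
    Real.sin_add]
  module

theorem rt_deriv0 {v w : E} (ho : Orth v w) (x : E) :
    HasDerivAt (fun t => rt v w t x) (XF v w x) 0 := by
  refine (ho.rt_deriv x 0).congr_deriv ?_
  unfold XF
  rw [Real.sin_zero, Real.cos_zero]
  module

theorem onePar_rt {v w : E} (ho : Orth v w) : IsOnePar (rtE v w) (XF v w) := by
  refine ⟨fun s t x => ?_, fun x => ?_⟩
  · rw [ho.rtE_apply, ho.rtE_apply, ho.rtE_apply, rt_add ho]
  · have h1 : (fun t => rtE v w t x) = fun t => rt v w t x := funext fun t => ho.rtE_apply t x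
    rw [h1]
    exact rt_deriv0 ho x

/-- two planes orthogonal to each other -/
structure Orth4 (a b c d : E) : Prop where
  ab : Orth a b
  cd : Orth c d
  ac : inner ℝ a c = (0 : ℝ)
  ad : inner ℝ a d = (0 : ℝ)
  bc : inner ℝ b c = (0 : ℝ)
  bd : inner ℝ b d = (0 : ℝ)

namespace Orth4

variable {a b c d : E} (h : Orth4 a b c d)

include h

theorem swap : Orth4 c d a b :=
  ⟨h.cd, h.ab, by rw [real_inner_comm]; exact h.ac, by rw [real_inner_comm]; exact h.bc,
    by rw [real_inner_comm]; exact h.ad, by rw [real_inner_comm]; exact h.bd⟩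

theorem rt_rt (s t : ℝ) (x : E) : rt a b s (rt c d t x) = rt a b s x + rt c d t x - x := by
  unfold rt
  simp only [inner_add_right, inner_smul_right, h.ac, h.ad, h.bc, h.bd]
  module

theorem comm (s t : ℝ) (x : E) : rt a b s (rt c d t x) = rt c d t (rt a b s x) := by
  rw [h.rt_rt, h.swap.rt_rt, add_comm]

theorem onePar : IsOnePar (fun t => rtE a b t * rtE c d t) (fun x => XF a b x + XF c d x) := by
  have e : ∀ t x, (rtE a b t * rtE c d t) x = rt a b t (rt c d t x) := fun t x => by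
    show rtE a b t (rtE c d t x) = _
    rw [h.ab.rtE_apply, h.cd.rtE_apply]
  refine ⟨fun s t x => ?_, fun x => ?_⟩
  · beta_reduce
    rw [e, e, e, rt_add h.ab, rt_add h.cd, h.comm t s (rt c d t x)]
  · have h1 : (fun t => (rtE a b t * rtE c d t) x) = fun t => rt a b t x + rt c d t x - x := by
      funext t
      rw [e, h.rt_rt]
    rw [h1]
    exact ((rt_deriv0 h.ab x).add (rt_deriv0 h.cd x)).sub_const x

end Orth4

/-! ### the orthogonal case -/

theorem XF_v {v w : E} (ho : Orth v w) : XF v w v = w := by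
  unfold XF
  rw [ho.vv, ho.wv]
  simp

/-- a nonzero vector is a multiple of a unit vector -/
theorem exists_unit {K : Submodule ℝ E} {x : E} (hx : x ∈ K) :
    x = 0 ∨ ∃ v ∈ K, ‖v‖ = 1 ∧ (∀ y, inner ℝ y x = (0 : ℝ) → inner ℝ y v = (0 : ℝ)) ∧
      x = ‖x‖ • v := by
  by_cases h0 : x = 0
  · exact Or.inl h0
  · refine Or.inr ⟨‖x‖⁻¹ • x, K.smul_mem _ hx, unit_inv h0, fun y hy => ?_, ?_⟩
    · rw [inner_smul_right, hy, mul_zero]
    · rw [smul_smul, mul_inv_cancel₀ (norm_ne_zero_iff.2 h0), one_smul]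

/-! ### the unitary case -/

section

variable {J : E ≃ₗᵢ[ℝ] E}

theorem J_inner {x y : E} (hJ : J (J y) = -y) : (inner ℝ x (J y) : ℝ) = -inner ℝ (J x) y := by
  have h1 : (inner ℝ x (J y) : ℝ) = inner ℝ (J x) (J (J y)) := (J.inner_map_map _ _).symm
  rw [h1, hJ, inner_neg_right]

theorem J_self {x : E} (hJ : J (J x) = -x) : (inner ℝ x (J x) : ℝ) = 0 := by
  have h1 := J_inner (x := x) hJ
  rw [real_inner_comm x (J x)] at h1
  linarith

theorem J_rt (a b : E) (t : ℝ) (x : E) : J (rt a b t x) = rt (J a) (J b) t (J x) := by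
  unfold rt
  simp only [map_add, map_smul, J.inner_map_map]

theorem rt_neg_neg (a b : E) (t : ℝ) (x : E) : rt (-a) (-b) t x = rt a b t x := by
  unfold rt
  simp only [inner_neg_left]
  module

theorem rt_quarter (a b : E) (t : ℝ) (x : E) : rt b (-a) t x = rt a b t x := by
  unfold rt
  simp only [inner_neg_left]
  module

theorem Orth_J {u : E} (hu : ‖u‖ = 1) (hJu : J (J u) = -u) : Orth u (J u) :=
  ⟨hu, (J.norm_map u).trans hu, J_self hJu⟩

theorem Orth4_J {u v : E} (hu : ‖u‖ = 1) (hv : ‖v‖ = 1) (hJu : J (J u) = -u) (hJv : J (J v) = -v)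
    (huv : inner ℝ u v = (0 : ℝ)) (hJuv : inner ℝ (J u) v = (0 : ℝ)) :
    Orth4 u v (J u) (J v) := by
  refine ⟨⟨hu, hv, huv⟩, ⟨(J.norm_map u).trans hu, (J.norm_map v).trans hv,
    (J.inner_map_map u v).trans huv⟩, J_self hJu, ?_, ?_, J_self hJv⟩
  · rw [J_inner hJv, hJuv, neg_zero]
  · rw [real_inner_comm]
    exact hJuv

/-- the first kind of unitary one-parameter groups commutes with `J` -/
theorem rtE_J {u : E} (hu : ‖u‖ = 1) (hJu : J (J u) = -u) (t : ℝ) (x : E) :
    rtE u (J u) t (J x) = J (rtE u (J u) t x) := by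
  have ho := Orth_J hu hJu
  rw [ho.rtE_apply, ho.rtE_apply, J_rt, hJu, rt_quarter]

/-- the second kind of unitary one-parameter groups commutes with `J` -/
theorem rtE_JJ {u v : E} (h : Orth4 u v (J u) (J v)) (hJu : J (J u) = -u) (hJv : J (J v) = -v)
    (t : ℝ) (x : E) :
    (rtE u v t * rtE (J u) (J v) t) (J x) = J ((rtE u v t * rtE (J u) (J v) t) x) := by
  have step : ∀ y, J (rt (J u) (J v) t y) = rt u v t (J y) := fun y => by
    rw [J_rt, hJu, hJv, rt_neg_neg]
  show rtE u v t (rtE (J u) (J v) t (J x)) = J (rtE u v t (rtE (J u) (J v) t x))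
  rw [h.ab.rtE_apply, h.cd.rtE_apply, h.ab.rtE_apply, h.cd.rtE_apply, ← J_rt, h.comm, step]

end

/-- the velocities of the special orthogonal group in a subspace `K` and zero outside -/
theorem ortho_vel {K : Submodule ℝ E} {L : Set (E × E)} (hL : RotFix Kᗮ L) {u v : E}
    (hu : u ∈ K) (hv : v ∈ K)
    (hu1 : ‖u‖ = 1) (huv : inner ℝ u v = (0 : ℝ)) (T : Submodule ℝ (E × E)) (e : E)
    (he : e ∈ Kᗮ) (ι : E → E × E)
    (hι : ∀ (a b : ℝ) (x y : E), ι (a • x + b • y) = a • ι x + b • ι y)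
    (hT : ∀ (φ : ℝ → (E ≃ₗᵢ[ℝ] E)) (A : E → E), IsOnePar φ A → (∀ t, φ t ∈ Stab L) →
      A e = 0 → ι (A u) ∈ T) : ι v ∈ T := by
  have horth : ∀ {x y : E}, x ∈ K → y ∈ Kᗮ → (inner ℝ x y : ℝ) = 0 := fun hx hy =>
    Submodule.inner_right_of_mem_orthogonal hx hy
  rcases exists_unit hv with h0 | ⟨v', hv', hv1, hvy, hvv⟩
  · have h1 : v = (0 : ℝ) • v + (0 : ℝ) • v := by rw [h0]; simp
    rw [h1, hι, zero_smul, add_zero]
    exact T.zero_mem
  · have ho : Orth u v' := ⟨hu1, hv1, hvy u huv⟩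
    have h1 : v = ‖v‖ • v' + (0 : ℝ) • v' := by rw [zero_smul, add_zero]; exact hvv
    rw [h1, hι, zero_smul, add_zero]
    refine T.smul_mem _ ?_
    have h2 := hT (rtE u v') (XF u v') (onePar_rt ho) (mem_Stab (onePar_rt ho)
      fun t z hz => by
        have h4 := rot_inv hL ho (fun x hx => horth hu hx) (fun x hx => horth hv' hx) t z hz
        rwa [ho.rtE_apply, ho.rtE_apply]) (XF_zero (horth hu he) (horth hv' he))
    rwa [XF_v ho] at h2

/-- the unitary velocities in a subspace `K` and zero outside -/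
theorem unitary_vel {J : E ≃ₗᵢ[ℝ] E} {K : Submodule ℝ E}
    (hJK : ∀ x ∈ K, J x ∈ K ∧ J (J x) = -x) {L : Set (E × E)}
    (hL : ∀ g : E ≃ₗᵢ[ℝ] E, (∀ x ∈ Kᗮ, g x = x) → (∀ x ∈ K, g (J x) = J (g x)) →
      ∀ z ∈ L, (g z.1, g z.2) ∈ L) {u v : E} (hu : u ∈ K) (hv : v ∈ K)
    (hu1 : ‖u‖ = 1) (huv : inner ℝ u v = (0 : ℝ)) (T : Submodule ℝ (E × E)) (e : E)
    (he : e ∈ Kᗮ) (ι : E → E × E)
    (hι : ∀ (a b : ℝ) (x y : E), ι (a • x + b • y) = a • ι x + b • ι y)
    (hT : ∀ (φ : ℝ → (E ≃ₗᵢ[ℝ] E)) (A : E → E), IsOnePar φ A → (∀ t, φ t ∈ Stab L) →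
      A e = 0 → ι (A u) ∈ T) : ι v ∈ T := by
  have horth : ∀ {x y : E}, x ∈ K → y ∈ Kᗮ → (inner ℝ x y : ℝ) = 0 := fun hx hy =>
    Submodule.inner_right_of_mem_orthogonal hx hy
  have hJu := (hJK u hu).2
  have hJuK := (hJK u hu).1
  -- the complex line of `u`
  have ho := Orth_J hu1 hJu
  have h1 : ι (J u) ∈ T := by
    have h2 := hT (rtE u (J u)) (XF u (J u)) (onePar_rt ho) (mem_Stab (onePar_rt ho)
      fun t => hL _ (fun x hx => by
        rw [ho.rtE_apply, ho.rt_fix (horth hu hx) (horth hJuK hx)])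
        fun x _ => rtE_J hu1 hJu t x)
      (XF_zero (horth hu he) (horth hJuK he))
    rwa [XF_v ho] at h2
  -- the rest
  set r : ℝ := inner ℝ (J u) v with hr
  set d : E := v - r • J u with hd
  have hdK : d ∈ K := K.sub_mem hv (K.smul_mem _ hJuK)
  have hJJ : inner ℝ (J u) (J u) = (1 : ℝ) := e_e ((J.norm_map u).trans hu1)
  have hud : inner ℝ u d = (0 : ℝ) := by
    rw [hd, inner_sub_right, inner_smul_right, huv, ho.vw]
    ring
  have hJd : inner ℝ (J u) d = (0 : ℝ) := by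
    rw [hd, inner_sub_right, inner_smul_right, hJJ, ← hr]
    ring
  have h2 : ∃ s : ℝ, ∃ v' : E, d = s • v' ∧ (s = 0 ∨ ι v' ∈ T) := by
    rcases exists_unit hdK with h0 | ⟨v', hv', hv1, hvy, hvv⟩
    · exact ⟨0, 0, by rw [h0, smul_zero], Or.inl rfl⟩
    · refine ⟨‖d‖, v', hvv, Or.inr ?_⟩
      have hJv := (hJK v' hv').2
      have hJvK := (hJK v' hv').1
      have h := Orth4_J hu1 hv1 hJu hJv (hvy u hud) (hvy _ hJd)
      have h3 := hT (fun t => rtE u v' t * rtE (J u) (J v') t)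
        (fun x => XF u v' x + XF (J u) (J v') x) h.onePar (mem_Stab h.onePar
        fun t => hL _ (fun x hx => by
          show rtE u v' t (rtE (J u) (J v') t x) = x
          rw [h.ab.rtE_apply, h.cd.rtE_apply,
            h.cd.rt_fix (horth hJuK hx) (horth hJvK hx),
            h.ab.rt_fix (horth hu hx) (horth hv' hx)])
          fun x _ => rtE_JJ h hJu hJv t x)
        (by
          rw [XF_zero (horth hu he) (horth hv' he),
            XF_zero (horth hJuK he) (horth hJvK he), add_zero])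
      have h4 : XF (J u) (J v') u = 0 := XF_zero (by rw [real_inner_comm]; exact h.ac)
        (by rw [real_inner_comm]; exact h.ad)
      beta_reduce at h3
      rwa [XF_v h.ab, h4, add_zero] at h3
  obtain ⟨s, v', hs, hT'⟩ := h2
  have h3 : v = r • J u + s • v' := by
    rw [← hs, hd]
    abel
  rw [h3, hι]
  refine T.add_mem (T.smul_mem _ h1) ?_
  rcases hT' with h4 | h4
  · rw [h4, zero_smul]
    exact T.zero_mem
  · exact T.smul_mem _ h4

theorem factor_vel {K : Submodule ℝ E} {L : Set (E × E)} (hL : FactorInv K L) {u v : E}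
    (hu : u ∈ K) (hv : v ∈ K)
    (hu1 : ‖u‖ = 1) (huv : inner ℝ u v = (0 : ℝ)) (T : Submodule ℝ (E × E)) (e : E)
    (he : e ∈ Kᗮ) (ι : E → E × E)
    (hι : ∀ (a b : ℝ) (x y : E), ι (a • x + b • y) = a • ι x + b • ι y)
    (hT : ∀ (φ : ℝ → (E ≃ₗᵢ[ℝ] E)) (A : E → E), IsOnePar φ A → (∀ t, φ t ∈ Stab L) →
      A e = 0 → ι (A u) ∈ T) : ι v ∈ T := by
  rcases hL with h | ⟨J, hJK, h⟩
  · exact ortho_vel h hu hv hu1 huv T e he ι hι hT
  · exact unitary_vel hJK h hu hv hu1 huv T e he ι hι hT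

/-- products of special orthogonal and unitary groups are infinitesimally transitive -/
theorem infTrans_factor {F : Submodule ℝ E} {L : Set (E × E)} (h1 : FactorInv F L)
    (h2 : FactorInv Fᗮ L) : InfTrans F (Stab L) := by
  intro u hu e he hu1 he1 v hv w hw huv hew
  have e0 : (v, w) = (v, (0 : E)) + ((0 : E), w) := by simp
  rw [e0]
  refine Submodule.add_mem _ ?_ ?_
  · refine factor_vel h1 hu hv hu1 huv _ e he
      (fun x => (x, 0)) (fun a b x y => ?_) (fun φ A hA hφ hAe => ?_)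
    · beta_reduce
      rw [Prod.smul_mk, Prod.smul_mk, Prod.mk_add_mk, smul_zero, smul_zero, add_zero]
    · exact Submodule.subset_span ⟨φ, A, hA, hφ, by rw [hAe]⟩
  · refine factor_vel h2 he hw he1 hew _ u (Submodule.le_orthogonal_orthogonal F hu)
      (fun x => (0, x)) (fun a b x y => ?_) (fun φ A hA hφ hAu => ?_)
    · beta_reduce
      rw [Prod.smul_mk, Prod.smul_mk, Prod.mk_add_mk, smul_zero, smul_zero, add_zero]
    · exact Submodule.subset_span ⟨φ, A, hA, hφ, by rw [hAu]⟩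

/-- **Main theorem, special orthogonal and unitary factors.** -/
theorem main_factor {n : ℕ} (hn : Module.finrank ℝ E = n + 1) {F : Submodule ℝ E}
    (hF : F ≠ ⊥) (hF' : F ≠ ⊤) {L : Set (E × E)}
    (hL : IsClosedExactLagrangian n (Sph E) L) (h1 : FactorInv F L) (h2 : FactorInv Fᗮ L) :
    HamIsotopicToZero (Sph E) L :=
  main_grp hn hF hF' hL (infTrans_factor h1 h2) Stab_inv

end Vale.Agent.P220.R2.H562
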