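import Vale.Agent.P220.R2.H562.Inv

/-!
# Closed exact Lagrangians in the cotangent bundle of a sphere with two groups of rotations
-/

open Set Filter Topology
open scoped ContDiff

set_option linter.unusedSectionVars false

namespace Vale.Agent.P220.R2.H562

open H57 H180

variable {E : Type} [NormedAddCommGroup E] [InnerProductSpace ℝ E] [FiniteDimensional ℝ E]

/-- the case in which both subspaces have dimension at least two -/
theorem main_two {n : ℕ} (hn : Module.finrank ℝ E = n + 1) {F : Submodule ℝ E}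
    (hF : 2 ≤ Module.finrank ℝ F) (hF' : 2 ≤ Module.finrank ℝ Fᗮ) {L : Set (E × E)}
    (hL : IsClosedExactLagrangian n (Sph E) L) (h1 : RotFix Fᗮ L) (h2 : RotFix F L) :
    HamIsotopicToZero (Sph E) L := by
  obtain ⟨u, huF, hu, -⟩ := exists_third2 hF 0
  obtain ⟨e, heF, he, -⟩ := exists_third2 hF' 0
  have h : Orth e u := ⟨he, hu, Submodule.inner_left_of_mem_orthogonal huF heF⟩
  have hplane : ∀ z ∈ L, ∃ e' u', e' ∈ Fᗮ ∧ u' ∈ F ∧ Orth e' u' ∧ InPl e' u' z.1 ∧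
      InPl e' u' z.2 := fun z hz => exists_plane2 he heF hu huF hL h1 h2 hz
  -- invariance under all isometries
  have hthird : ∀ {e' u' w x : E}, InPl e' u' x → inner ℝ w e' = (0 : ℝ) →
      inner ℝ w u' = (0 : ℝ) → inner ℝ w x = (0 : ℝ) := by
    intro e' u' w x hx h3 h4
    rw [hx, inner_add_right, inner_smul_right, inner_smul_right, h3, h4]
    ring
  have hinv1 : ∀ g : E ≃ₗᵢ[ℝ] E, (∀ x ∈ Fᗮ, g x = x) →
      (LinearMap.det (g.toLinearEquiv : E →ₗ[ℝ] E) = 1 ∨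
      LinearMap.det (g.toLinearEquiv : E →ₗ[ℝ] E) = -1) → ∀ z ∈ L, (g z.1, g z.2) ∈ L := by
    intro g hg hd z hz
    refine ext_inv h1 (fun z hz => ?_) hg hd hz
    obtain ⟨e', u', he', hu', ho, p1, p2⟩ := hplane z hz
    obtain ⟨w, hwF, hw, hwu⟩ := exists_third2 hF u'
    have hK : ∀ x ∈ Fᗮ, inner ℝ w x = (0 : ℝ) := fun x hx =>
      Submodule.inner_right_of_mem_orthogonal hwF hx
    exact ⟨w, hw, hK, hthird p1 (hK _ he') hwu, hthird p2 (hK _ he') hwu⟩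
  have hinv2 : ∀ g : E ≃ₗᵢ[ℝ] E, (∀ x ∈ F, g x = x) →
      (LinearMap.det (g.toLinearEquiv : E →ₗ[ℝ] E) = 1 ∨
      LinearMap.det (g.toLinearEquiv : E →ₗ[ℝ] E) = -1) → ∀ z ∈ L, (g z.1, g z.2) ∈ L := by
    intro g hg hd z hz
    refine ext_inv h2 (fun z hz => ?_) hg hd hz
    obtain ⟨e', u', he', hu', ho, p1, p2⟩ := hplane z hz
    obtain ⟨w, hwF, hw, hwe⟩ := exists_third2 hF' e'
    have hK : ∀ x ∈ F, inner ℝ w x = (0 : ℝ) := fun x hx =>
      Submodule.inner_left_of_mem_orthogonal hx hwF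
    exact ⟨w, hw, hK, hthird p1 hwe (hK _ hu'), hthird p2 hwe (hK _ hu')⟩
  have hSu : ∀ a ∈ F, ‖a‖ = 1 → ∀ z ∈ L, SS a z ∈ L := fun a ha ha1 z hz =>
    hinv1 (Refl a) (fun x hx => Refl_fix ha1 (Submodule.inner_right_of_mem_orthogonal ha hx))
      (Or.inr (Refl_det ha1)) z hz
  have hSe : ∀ a ∈ Fᗮ, ‖a‖ = 1 → ∀ z ∈ L, SS a z ∈ L := fun a ha ha1 z hz =>
    hinv2 (Refl a) (fun x hx => Refl_fix ha1 (Submodule.inner_left_of_mem_orthogonal hx ha))
      (Or.inr (Refl_det ha1)) z hz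
  have hneg : ∀ z ∈ L, (-z.1, -z.2) ∈ L := by
    intro z hz
    obtain ⟨e', u', he', hu', ho, p1, p2⟩ := hplane z hz
    have h3 := hSe e' he' ho.v1 _ (hSu u' hu' ho.w1 z hz)
    rw [SS_apply, SS_apply] at h3
    rw [neg_Refl ho p1, neg_Refl ho p2]
    exact h3
  have hRL : ∀ z ∈ L, RR e u z ∈ L := by
    intro z hz
    have h3 := hSe e heF he _ (hSu u huF hu _ (hneg z hz))
    rw [SS_apply, SS_apply] at h3
    rw [RR_apply, refl_Pl h, refl_Pl h]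
    simp only [map_neg] at h3
    exact h3
  -- moving points to the slice
  have hmove : ∀ e' ∈ Fᗮ, ∀ u' ∈ F, ‖e'‖ = 1 → ‖u'‖ = 1 → ∃ g₁ g₂ : E ≃ₗᵢ[ℝ] E,
      (∀ x ∈ Fᗮ, g₁ x = x) ∧ (∀ x ∈ F, g₂ x = x) ∧ (∀ x, g₁ (g₁ x) = x) ∧ (∀ x, g₂ (g₂ x) = x) ∧
      g₂ (g₁ e') = e ∧ g₂ (g₁ u') = u ∧ (∀ z ∈ L, (g₂ (g₁ z.1), g₂ (g₁ z.2)) ∈ L) ∧
      ∀ z ∈ L, (g₁ (g₂ z.1), g₁ (g₂ z.2)) ∈ L := by
    intro e' he' u' hu' he1 hu1
    obtain ⟨g₁, f1, s1, i1, d1⟩ := exists_swap2 (K := Fᗮ) hu hu1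
      (fun x hx => Submodule.inner_right_of_mem_orthogonal huF hx)
      (fun x hx => Submodule.inner_right_of_mem_orthogonal hu' hx)
    obtain ⟨g₂, f2, s2, i2, d2⟩ := exists_swap2 (K := F) he he1
      (fun x hx => Submodule.inner_left_of_mem_orthogonal hx heF)
      (fun x hx => Submodule.inner_left_of_mem_orthogonal hx he')
    refine ⟨g₁, g₂, f1, f2, i1, i2, ?_, ?_, ?_, ?_⟩
    · rw [f1 _ he', s2]
    · rw [s1, f2 _ huF]
    · intro z hz
      exact hinv2 g₂ f2 d2 _ (hinv1 g₁ f1 d1 z hz)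
    · intro z hz
      exact hinv1 g₁ f1 d1 _ (hinv2 g₂ f2 d2 z hz)
  have hne : (Slc e u L).Nonempty := by
    obtain ⟨z, hz⟩ := hL.nonempty
    obtain ⟨e', u', he', hu', ho, p1, p2⟩ := hplane z hz
    obtain ⟨g₁, g₂, -, -, -, -, se, su, m1, -⟩ := hmove e' he' u' hu' ho.v1 ho.w1
    have q1 := inPl_map2 g₂ (inPl_map2 g₁ p1)
    have q2 := inPl_map2 g₂ (inPl_map2 g₁ p2)
    rw [se, su] at q1 q2
    exact ⟨_, m1 z hz, h.RR_eq.2 ⟨q1, q2⟩⟩
  have hS := h.slice_closed hn hL hRL hne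
  have hInT : ∀ z ∈ Slc e u L, InT e u z := by
    intro z hz
    obtain ⟨h4, h5⟩ := cot_sph.1 (hL.sub hz.1)
    obtain ⟨h6, h7⟩ := h.RR_eq.1 hz.2
    exact ⟨h4, h6, h7, h5⟩
  have hSSu : ∀ z ∈ Slc e u L, SS u z ∈ Slc e u L := by
    intro z hz
    have h4 := h.InT_SS (hInT z hz)
    exact ⟨hSu u huF hu z hz.1, h.RR_eq.2 ⟨h4.p1, h4.p2⟩⟩
  have hSSe : ∀ z ∈ Slc e u L, SS e z ∈ Slc e u L := by
    intro z hz
    have h4 := InT_SSe h (hInT z hz)
    exact ⟨hSe e heF he z hz.1, h.RR_eq.2 ⟨h4.p1, h4.p2⟩⟩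
  obtain ⟨D, hDQ, hDL, hDX⟩ := exists_base' h.circ_closed hS (h.slice_emb hS.sub)
  obtain ⟨Λ⟩ := D.exists_leaf
  obtain ⟨γ, hγ, hsym⟩ := exists_curve3 h Λ hDQ hDX (by rw [hDL]; exact hSSu)
    (by rw [hDL]; exact hSSe)
  rw [hDL] at hγ
  obtain ⟨c, hc, hc1, hc2⟩ := exists_arc2 hγ h hInT hsym
  have hP := isPr_star F
  have hPe : F.starProjection e = 0 := star_orth F heF
  have hPu : F.starProjection u = u := Submodule.starProjection_eq_self_iff.2 huF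
  refine ham_of_arc2 hP he hPe hu hPu hc fun z => ?_
  constructor
  · intro hz
    obtain ⟨h4, h5⟩ := cot_sph.1 (hL.sub hz)
    obtain ⟨e', u', he', hu', ho, p1, p2⟩ := hplane z hz
    refine ⟨h4, h5, ⟨e', u', ho.v1, star_orth F he', ho.w1,
      Submodule.starProjection_eq_self_iff.2 hu', p1, p2⟩, ?_⟩
    obtain ⟨g₁, g₂, f1, f2, -, -, se, su, m1, -⟩ := hmove e' he' u' hu' ho.v1 ho.w1
    have q1 := inPl_map2 g₂ (inPl_map2 g₁ p1)
    have q2 := inPl_map2 g₂ (inPl_map2 g₁ p2)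
    rw [se, su] at q1 q2
    have hsl : (g₂ (g₁ z.1), g₂ (g₁ z.2)) ∈ Slc e u L := ⟨m1 z hz, h.RR_eq.2 ⟨q1, q2⟩⟩
    obtain ⟨τ, hτ, hcτ⟩ := hc1 _ hsl
    refine ⟨τ, hτ, ?_⟩
    rw [hcτ, ← wf_slice h hPe hPu (hInT _ hsl)]
    have e1 := wf_map (P := F.starProjection) (g := g₂) (star_comm' f2) (g₁ z.1, g₁ z.2)
    have e2 := wf_map (P := F.starProjection) (g := g₁) (star_comm f1) z
    rw [e1, e2]
  · rintro ⟨h4, h5, ⟨e', u', he1, hPe', hu1, hPu', p1, p2⟩, τ, hτ, hcτ⟩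
    have he' : e' ∈ Fᗮ := (F.starProjection_apply_eq_zero_iff).1 hPe'
    have hu' : u' ∈ F := Submodule.starProjection_eq_self_iff.1 hPu'
    obtain ⟨z₀, hz₀, hwz₀⟩ := hc2 τ hτ
    obtain ⟨g₁, g₂, f1, f2, i1, i2, se, su, -, m2⟩ := hmove e' he' u' hu' he1 hu1
    have q1 := inPl_map2 g₂ (inPl_map2 g₁ p1)
    have q2 := inPl_map2 g₂ (inPl_map2 g₁ p2)
    rw [se, su] at q1 q2
    have hT : InT e u (g₂ (g₁ z.1), g₂ (g₁ z.2)) := by
      refine ⟨?_, q1, q2, ?_⟩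
      · simp only [LinearIsometryEquiv.norm_map]
        exact h4
      · simp only [LinearIsometryEquiv.inner_map_map]
        exact h5
    have e1 := wf_map (P := F.starProjection) (g := g₂) (star_comm' f2) (g₁ z.1, g₁ z.2)
    have e2 := wf_map (P := F.starProjection) (g := g₁) (star_comm f1) z
    have hw : wt e (g₂ (g₁ z.1), g₂ (g₁ z.2)) ^ 2 = wt e z₀ ^ 2 := by
      have e3 := wf_slice h hPe hPu hT
      rw [e1, e2, ← hcτ, ← hwz₀] at e3
      linear_combination -e3 / 2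
    have hT0 := hInT z₀ hz₀
    have h8 : (g₂ (g₁ z.1), g₂ (g₁ z.2)) ∈ L := by
      rcases sq_eq_sq_iff_eq_or_eq_neg.1 hw with h9 | h9
      · rcases h.eq_or_of_wt hT hT0 h9 with h10 | h10
        · rw [h10]
          exact hz₀.1
        · rw [h10]
          exact hSu u huF hu _ hz₀.1
      · rw [← wte_SS h] at h9
        rcases h.eq_or_of_wt hT (InT_SSe h hT0) h9 with h10 | h10
        · rw [h10]
          exact hSe e heF he _ hz₀.1
        · rw [h10]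
          exact hSu u huF hu _ (hSe e heF he _ hz₀.1)
    have h9 := m2 _ h8
    simp only [i1, i2] at h9
    exact h9

/-- the case in which one of the subspaces is a line -/
theorem main_line {n : ℕ} (hn : Module.finrank ℝ E = n + 1) {F : Submodule ℝ E}
    (hF : Module.finrank ℝ F = 1) (h0 : 1 ≤ n) {L : Set (E × E)}
    (hL : IsClosedExactLagrangian n (Sph E) L) (h2 : RotFix F L) :
    HamIsotopicToZero (Sph E) L := by
  obtain ⟨v, hv, hv'⟩ := finrank_eq_one_iff'.1 hF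
  have hv1 : (v : E) ≠ 0 := fun h => hv (Subtype.ext h)
  have he := unit_inv hv1
  refine H180.main hn h0 he hL fun g hg hd z hz => h2 g (fun x hx => ?_) hd z hz
  obtain ⟨a, ha⟩ := hv' ⟨x, hx⟩
  have hx1 : x = a • (v : E) := (congrArg Subtype.val ha).symm
  have hx2 : x = (a * ‖(v : E)‖) • (‖(v : E)‖⁻¹ • (v : E)) := by
    rw [hx1, smul_smul, mul_assoc, mul_inv_cancel₀ (norm_ne_zero_iff.2 hv1), mul_one]
  rw [hx2, map_smul, hg]

/-- **Main theorem.** -/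
theorem main {n : ℕ} (hn : Module.finrank ℝ E = n + 1) {F : Submodule ℝ E}
    (hF : F ≠ ⊥) (hF' : F ≠ ⊤) {L : Set (E × E)}
    (hL : IsClosedExactLagrangian n (Sph E) L) (h1 : RotFix Fᗮ L) (h2 : RotFix F L) :
    HamIsotopicToZero (Sph E) L := by
  have d1 := F.finrank_add_finrank_orthogonal
  have d2 : Module.finrank ℝ F ≠ 0 := fun h => hF (Submodule.finrank_eq_zero.1 h)
  have d3 : Module.finrank ℝ Fᗮ ≠ 0 := fun h => hF' (by
    have h3 := Submodule.finrank_eq_zero.1 h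
    rwa [Submodule.orthogonal_eq_bot_iff] at h3)
  rcases Nat.lt_or_ge (Module.finrank ℝ F) 2 with h3 | h3
  · exact main_line hn (F := F) (by omega) (by omega) hL h2
  rcases Nat.lt_or_ge (Module.finrank ℝ Fᗮ) 2 with h4 | h4
  · exact main_line hn (F := Fᗮ) (by omega) (by omega) hL h1
  exact main_two hn h3 h4 hL h1 h2

end Vale.Agent.P220.R2.H562
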