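import Vale.Agent.P220.R2.H562.Defs
import Vale.Agent.P220.R2.H562.Main

/-!
# One-parameter groups of isometries that preserve an exact Lagrangian
-/

open Set Filter Topology
open scoped ContDiff

set_option linter.unusedSectionVars false

namespace Vale.Agent.P220.R2.H562

open H57 H180

variable {E : Type} [NormedAddCommGroup E] [InnerProductSpace ℝ E] [FiniteDimensional ℝ E]

namespace IsOnePar

variable {φ : ℝ → (E ≃ₗᵢ[ℝ] E)} {A : E → E} (h : IsOnePar φ A)

include h

theorem zero (x : E) : φ 0 x = x := by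
  have h1 := h.add 0 0 x
  rw [add_zero] at h1
  exact ((φ 0).injective h1).symm

theorem derivAt (x : E) (t : ℝ) : HasDerivAt (fun t => φ t x) (φ t (A x)) t := by
  have h1 : HasDerivAt (fun s => φ s x) (A x) ((fun s : ℝ => s - t) t) := by
    beta_reduce
    rw [sub_self]
    exact h.deriv x
  have h2 : HasDerivAt (fun s : ℝ => s - t) 1 t := (hasDerivAt_id t).sub_const t
  have h3 : HasDerivAt (fun s => φ (s - t) x) ((1 : ℝ) • A x) t :=
    HasDerivAt.scomp (h := fun s : ℝ => s - t) t h1 h2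
  rw [one_smul] at h3
  have h4 : HasDerivAt (fun s => φ t (φ (s - t) x)) (φ t (A x)) t :=
    ((φ t : E ≃L[ℝ] E) : E →L[ℝ] E).hasFDerivAt.comp_hasDerivAt t h3
  have h5 : (fun s => φ t (φ (s - t) x)) = fun s => φ s x := by
    funext s
    rw [← h.add]
    congr 2
    ring
  rw [h5] at h4
  exact h4

theorem comm (x : E) (t : ℝ) : A (φ t x) = φ t (A x) := by
  have h1 := h.deriv (φ t x)
  have h2 : HasDerivAt (fun s => φ t (φ s x)) (φ t (A x)) 0 :=
    ((φ t : E ≃L[ℝ] E) : E →L[ℝ] E).hasFDerivAt.comp_hasDerivAt (0 : ℝ) (h.deriv x)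
  have h3 : (fun s => φ t (φ s x)) = fun s => φ s (φ t x) := by
    funext s
    rw [← h.add, ← h.add, add_comm]
  rw [h3] at h2
  exact h1.unique h2

theorem lin (a b : ℝ) (x y : E) : A (a • x + b • y) = a • A x + b • A y := by
  have h1 := h.deriv (a • x + b • y)
  have h2 := ((h.deriv x).const_smul a).add ((h.deriv y).const_smul b)
  have h3 : (fun t => φ t (a • x + b • y)) = (a • fun t => φ t x) + (b • fun t => φ t y) := by
    funext t
    simp only [map_add, map_smul, Pi.add_apply, Pi.smul_apply]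
  rw [h3] at h1
  exact h1.unique h2

theorem smooth_nat (n : ℕ) : ∀ x, ContDiff ℝ n fun t => φ t x := by
  induction n with
  | zero =>
    intro x
    rw [Nat.cast_zero, contDiff_zero]
    exact continuous_iff_continuousAt.2 fun t => (h.derivAt x t).continuousAt
  | succ n ih =>
    intro x
    have e : ((n + 1 : ℕ) : WithTop ℕ∞) = (n : WithTop ℕ∞) + 1 := by push_cast; rfl
    rw [e, contDiff_succ_iff_deriv]
    refine ⟨fun t => (h.derivAt x t).differentiableAt, fun hn => absurd hn (by simp), ?_⟩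
    have h1 : _root_.deriv (fun t => φ t x) = fun t => φ t (A x) :=
      funext fun t => (h.derivAt x t).deriv
    rw [h1]
    exact ih (A x)

theorem smooth (x : E) : ContDiff ℝ ∞ fun t => φ t x :=
  contDiff_infty.2 fun n => h.smooth_nat n x

/-- the generator is tangent to an invariant set -/
theorem tangent {L : Set (E × E)} (hinv : ∀ t, ∀ z ∈ L, (φ t z.1, φ t z.2) ∈ L) {z : E × E}
    (hz : z ∈ L) : (A z.1, A z.2) ∈ Tan L z := by
  refine ⟨fun t => (φ t z.1, φ t z.2), (h.smooth _).prodMk (h.smooth _), fun t => hinv t z hz,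
    ?_, ?_⟩
  · beta_reduce
    rw [h.zero, h.zero]
  · exact ((h.deriv _).prodMk (h.deriv _)).deriv

/-- the moment vanishes -/
theorem moment {n : ℕ} {Q : Set E} {L : Set (E × E)} (hL : IsClosedExactLagrangian n Q L)
    (hinv : ∀ t, ∀ z ∈ L, (φ t z.1, φ t z.2) ∈ L) {z : E × E} (hz : z ∈ L) :
    inner ℝ z.2 (A z.1) = (0 : ℝ) := by
  obtain ⟨f, hf, hex⟩ := hL.exact
  obtain ⟨M, hM⟩ := hL.compact.exists_bound_of_continuousOn hf.continuous.continuousOn
  set k : ℝ := inner ℝ z.2 (A z.1) with hk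
  set γ : ℝ → E × E := fun t => (φ t z.1, φ t z.2) with hγ
  have hγL : ∀ t, γ t ∈ L := fun t => hinv t z hz
  have hγd : ∀ t, HasDerivAt γ (A (φ t z.1), A (φ t z.2)) t := by
    intro t
    rw [h.comm, h.comm]
    exact (h.derivAt _ t).prodMk (h.derivAt _ t)
  have hfd : ∀ t, HasDerivAt (fun t => f (γ t) - t * k) 0 t := by
    intro t
    have h1 : HasDerivAt (fun t => f (γ t)) _ t :=
      (hf.differentiable (by simp) (γ t)).hasFDerivAt.comp_hasDerivAt t (hγd t)
    rw [hex _ (hγL t) _ (h.tangent hinv (hγL t))] at h1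
    have h4 := h1.sub ((hasDerivAt_id t).mul_const k)
    refine h4.congr_deriv ?_
    simp only [lam, hγ]
    rw [h.comm, (φ t).inner_map_map, hk]
    ring
  have hc : ∀ t, f (γ t) - t * k = f (γ 0) := by
    intro t
    have := is_const_of_deriv_eq_zero (fun t => (hfd t).differentiableAt)
      (fun t => (hfd t).deriv) t 0
    simpa using this
  by_contra hk0
  have h2 := hc ((2 * M + 1) / k)
  rw [div_mul_cancel₀ _ hk0] at h2
  have h3 := hM _ (hγL ((2 * M + 1) / k))
  have h4 := hM _ (hγL 0)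
  rw [Real.norm_eq_abs, abs_le] at h3 h4
  linarith [h3.1, h3.2, h4.1, h4.2]

end IsOnePar

/-- a rotation field that is tangent to `L` preserves `L` -/
theorem rt_mem {n : ℕ} {Q : Set E} {L : Set (E × E)} (hL : IsClosedExactLagrangian n Q L)
    {v w : E} (ho : Orth v w) (hT : ∀ z ∈ L, (XF v w z.1, XF v w z.2) ∈ Tan L z) :
    ∀ t, ∀ z ∈ L, (rt v w t z.1, rt v w t z.2) ∈ L := by
  obtain ⟨U, ρ, hρ, -⟩ := exists_ret hL.mfd hL.compact
  intro t z hz
  have hX : ContDiff ℝ ∞ (XF v w) :=
    ((contDiff_const.inner ℝ contDiff_id).smul contDiff_const).sub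
      ((contDiff_const.inner ℝ contDiff_id).smul contDiff_const)
  have hY : ContDiff ℝ ∞ fun z : E × E => (XF v w z.1, XF v w z.2) :=
    (hX.comp contDiff_fst).prodMk (hX.comp contDiff_snd)
  have hd : ∀ x t, HasDerivAt (fun t => rt v w t x) (XF v w (rt v w t x)) t := by
    intro x t
    refine (ho.rt_deriv x t).congr_deriv ?_
    unfold XF rt
    simp only [inner_add_right, inner_smul_right, ho.vv, ho.ww, ho.vw, ho.wv]
    module
  have h0 : (rt v w 0 z.1, rt v w 0 z.2) = z := by simp [rt]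
  exact hρ.curve_mem hY (fun x hx => (hρ.mem_Tan hx).1 (hT x hx))
    (c := fun t => (rt v w t z.1, rt v w t z.2)) (fun t => (hd z.1 t).prodMk (hd z.2 t)) (t₀ := 0)
    (by beta_reduce; rw [h0]; exact hz) t

end Vale.Agent.P220.R2.H562
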