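import Vale.Agent.P220.R2.H562.Grp

/-!
# Exact Lagrangians over spheres with a group that is transitive on a product of two spheres
-/

open Set Filter Topology
open scoped ContDiff

set_option linter.unusedSectionVars false

namespace Vale.Agent.P220.R2.H562

open H57 H180

variable {E : Type} [NormedAddCommGroup E] [InnerProductSpace ℝ E] [FiniteDimensional ℝ E]

/-- the moments of the spanned velocities vanish -/
theorem span_moment {G : Subgroup (E ≃ₗᵢ[ℝ] E)} {n : ℕ} {Q : Set E} {L : Set (E × E)}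
    (hL : IsClosedExactLagrangian n Q L) (hG : ∀ g ∈ G, ∀ z ∈ L, (g z.1, g z.2) ∈ L)
    {z : E × E} (hz : z ∈ L) {e u : E} {a b : ℝ} (hx : z.1 = a • e + b • u) {p : E × E}
    (hp : p ∈ Submodule.span ℝ (Vel G u e)) : inner ℝ z.2 (a • p.2 + b • p.1) = (0 : ℝ) := by
  induction hp using Submodule.span_induction with
  | mem p hp =>
    obtain ⟨φ, A, hA, hφ, rfl⟩ := hp
    have h1 := hA.moment hL (fun t z hz => hG _ (hφ t) z hz) hz
    rw [hx, hA.lin] at h1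
    exact h1
  | zero => simp
  | add p q _ _ h1 h2 =>
    have e1 : a • (p + q).2 + b • (p + q).1 = (a • p.2 + b • p.1) + (a • q.2 + b • q.1) := by
      rw [Prod.snd_add, Prod.fst_add]
      module
    rw [e1, inner_add_right, h1, h2, add_zero]
  | smul c p _ h1 =>
    have e1 : a • (c • p).2 + b • (c • p).1 = c • (a • p.2 + b • p.1) := by
      rw [Prod.smul_snd, Prod.smul_fst]
      module
    rw [e1, inner_smul_right, h1, mul_zero]

/-- the spanned velocities are tangent -/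
theorem span_tangent {G : Subgroup (E ≃ₗᵢ[ℝ] E)} {n : ℕ} {Q : Set E} {L : Set (E × E)}
    (hL : IsClosedExactLagrangian n Q L) (hG : ∀ g ∈ G, ∀ z ∈ L, (g z.1, g z.2) ∈ L)
    {z : E × E} (hz : z ∈ L) {e u : E} {a b c d : ℝ} (hx : z.1 = a • e + b • u)
    (hy : z.2 = c • e + d • u) {p : E × E} (hp : p ∈ Submodule.span ℝ (Vel G u e)) :
    (a • p.2 + b • p.1, c • p.2 + d • p.1) ∈ Tan L z := by
  obtain ⟨U, ρ, hρ, -⟩ := exists_ret hL.mfd hL.compact
  rw [hρ.mem_Tan hz]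
  induction hp using Submodule.span_induction with
  | mem p hp =>
    obtain ⟨φ, A, hA, hφ, rfl⟩ := hp
    have h1 := hA.tangent (fun t z hz => hG _ (hφ t) z hz) hz
    rw [hρ.mem_Tan hz, hx, hy, hA.lin, hA.lin] at h1
    exact h1
  | zero =>
    have e1 : (a • (0 : E × E).2 + b • (0 : E × E).1, c • (0 : E × E).2 + d • (0 : E × E).1) =
      (0 : E × E) := by simp
    rw [e1]
    exact Submodule.zero_mem _
  | add p q _ _ h1 h2 =>
    have e1 : (a • (p + q).2 + b • (p + q).1, c • (p + q).2 + d • (p + q).1) =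
        (a • p.2 + b • p.1, c • p.2 + d • p.1) + (a • q.2 + b • q.1, c • q.2 + d • q.1) := by
      refine Prod.ext ?_ ?_
      · simp only [Prod.snd_add, Prod.fst_add]
        module
      · simp only [Prod.snd_add, Prod.fst_add]
        module
    rw [e1]
    exact Submodule.add_mem _ h1 h2
  | smul k p _ h1 =>
    have e1 : (a • (k • p).2 + b • (k • p).1, c • (k • p).2 + d • (k • p).1) =
        k • (a • p.2 + b • p.1, c • p.2 + d • p.1) := by
      refine Prod.ext ?_ ?_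
      · simp only [Prod.smul_snd, Prod.smul_fst]
        module
      · simp only [Prod.smul_snd, Prod.smul_fst]
        module
    rw [e1]
    exact Submodule.smul_mem _ _ h1

theorem XF_mem {K : Submodule ℝ E} {v w : E} (hv : v ∈ K) (hw : w ∈ K) (x : E) :
    XF v w x ∈ K := K.sub_mem (K.smul_mem _ hw) (K.smul_mem _ hv)

theorem XF_zero {v w x : E} (hv : inner ℝ v x = (0 : ℝ)) (hw : inner ℝ w x = (0 : ℝ)) :
    XF v w x = 0 := by
  unfold XF
  rw [hv, hw]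
  simp

theorem XF_both {F : Submodule ℝ E} {v w u e : E}
    (hvw : (v ∈ F ∧ w ∈ F) ∨ (v ∈ Fᗮ ∧ w ∈ Fᗮ)) (hu : u ∈ F) (he : e ∈ Fᗮ) :
    XF v w u ∈ F ∧ XF v w e ∈ Fᗮ := by
  rcases hvw with ⟨hv, hw⟩ | ⟨hv, hw⟩
  · refine ⟨XF_mem hv hw u, ?_⟩
    rw [XF_zero (Submodule.inner_right_of_mem_orthogonal hv he)
      (Submodule.inner_right_of_mem_orthogonal hw he)]
    exact Submodule.zero_mem _
  · refine ⟨?_, XF_mem hv hw e⟩
    rw [XF_zero (Submodule.inner_left_of_mem_orthogonal hu hv)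
      (Submodule.inner_left_of_mem_orthogonal hu hw)]
    exact Submodule.zero_mem _

/-- the velocities of a rotation are spanned by those of `G` -/
theorem XF_span {F : Submodule ℝ E} {G : Subgroup (E ≃ₗᵢ[ℝ] E)} (hG : InfTrans F G)
    {v w u e : E} (ho : Orth v w) (hvw : (v ∈ F ∧ w ∈ F) ∨ (v ∈ Fᗮ ∧ w ∈ Fᗮ)) (hu : u ∈ F)
    (he : e ∈ Fᗮ) (h : Orth e u) : (XF v w u, XF v w e) ∈ Submodule.span ℝ (Vel G u e) := by
  obtain ⟨h1, h2⟩ := XF_both hvw hu he
  exact hG u hu e he h.w1 h.v1 _ h1 _ h2 (ho.orth_XF u) (ho.orth_XF e)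

theorem exists_xplane {F : Submodule ℝ E} {e₀ u₀ : E} (he₀ : ‖e₀‖ = 1) (he₀F : e₀ ∈ Fᗮ)
    (hu₀ : ‖u₀‖ = 1) (hu₀F : u₀ ∈ F) (x : E) :
    ∃ e u, e ∈ Fᗮ ∧ u ∈ F ∧ Orth e u ∧ InPl e u x := by
  obtain ⟨u, hu, huF, k, hk⟩ := scale_unit F hu₀ hu₀F (F.starProjection_apply_mem x)
  obtain ⟨e, he, heF, k', hk'⟩ := scale_unit Fᗮ he₀ he₀F (F.sub_starProjection_mem_orthogonal x)
  have heu : inner ℝ e u = (0 : ℝ) := Submodule.inner_left_of_mem_orthogonal huF heF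
  refine ⟨e, u, heF, huF, ⟨he, hu, heu⟩, InPl.smul he hu heu k' k ?_⟩
  rw [← hk, ← hk']
  abel

theorem exists_plane3 {F : Submodule ℝ E} {e₀ u₀ : E} (he₀ : ‖e₀‖ = 1) (he₀F : e₀ ∈ Fᗮ)
    (hu₀ : ‖u₀‖ = 1) (hu₀F : u₀ ∈ F) {z : E × E}
    (h1 : ∀ v ∈ F, ∀ w ∈ F, Orth v w →
      (inner ℝ v z.1 * inner ℝ w z.2 : ℝ) = inner ℝ w z.1 * inner ℝ v z.2)
    (h2 : ∀ v ∈ Fᗮ, ∀ w ∈ Fᗮ, Orth v w →
      (inner ℝ v z.1 * inner ℝ w z.2 : ℝ) = inner ℝ w z.1 * inner ℝ v z.2) :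
    ∃ e u, e ∈ Fᗮ ∧ u ∈ F ∧ Orth e u ∧ InPl e u z.1 ∧ InPl e u z.2 := by
  have hP := isPr_star F
  set P := F.starProjection with hPd
  have hPu : ∀ u ∈ F, ∀ x, (inner ℝ u (P x) : ℝ) = inner ℝ u x := by
    intro u hu x
    rw [← hP.symm, Submodule.starProjection_eq_self_iff.2 hu]
  have hPe : ∀ e ∈ Fᗮ, ∀ x, (inner ℝ e (x - P x) : ℝ) = inner ℝ e x := by
    intro e he x
    rw [inner_sub_right, Submodule.inner_left_of_mem_orthogonal (F.starProjection_apply_mem x) he,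
      sub_zero]
  obtain ⟨u, huF, hu, a, b, ha, hb⟩ := exists_dir (K := F) (x := P z.1) (y := P z.2)
    (F.starProjection_apply_mem _) (F.starProjection_apply_mem _) hu₀ hu₀F (by
      intro v hv w hw hvw
      rw [hPu v hv, hPu w hw, hPu v hv, hPu w hw]
      exact h1 v hv w hw hvw)
  obtain ⟨e, heF, he, a', b', ha', hb'⟩ := exists_dir (K := Fᗮ) (x := z.1 - P z.1)
    (y := z.2 - P z.2)
    (F.sub_starProjection_mem_orthogonal _) (F.sub_starProjection_mem_orthogonal _) he₀ he₀F (by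
      intro v hv w hw hvw
      rw [hPe v hv, hPe w hw, hPe v hv, hPe w hw]
      exact h2 v hv w hw hvw)
  have heu : inner ℝ e u = (0 : ℝ) := Submodule.inner_left_of_mem_orthogonal huF heF
  refine ⟨e, u, heF, huF, ⟨he, hu, heu⟩, InPl.smul he hu heu a' a ?_, InPl.smul he hu heu b' b ?_⟩
  · rw [← ha, ← ha']
    abel
  · rw [← hb, ← hb']
    abel

/-- a plane rotation that moves one unit vector to another -/
theorem rot_move {K : Submodule ℝ E} (hK : 2 ≤ Module.finrank ℝ K) {e e' : E} (he : ‖e‖ = 1)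
    (he' : ‖e'‖ = 1) (heK : e ∈ K) (heK' : e' ∈ K) :
    ∃ w ∈ K, Orth e w ∧ ∃ t, rt e w t e = e' := by
  set s : ℝ := inner ℝ e e' with hs
  set d : E := e' - s • e with hd
  have hdK : d ∈ K := K.sub_mem heK' (K.smul_mem _ heK)
  have hed : inner ℝ e d = (0 : ℝ) := by
    rw [hd, inner_sub_right, inner_smul_right, e_e he, ← hs]
    ring
  have hdn : ‖d‖ ^ 2 = 1 - s ^ 2 := by
    rw [← real_inner_self_eq_norm_sq, hd]
    have h1 : inner ℝ e' e = s := by rw [real_inner_comm]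
    simp only [inner_sub_left, inner_sub_right, inner_smul_left, inner_smul_right, e_e he,
      e_e he', conj_trivial, h1, ← hs]
    ring
  obtain ⟨w, hwK, hw, hew, hdw⟩ : ∃ w ∈ K, ‖w‖ = 1 ∧ inner ℝ e w = (0 : ℝ) ∧ d = ‖d‖ • w := by
    by_cases h0 : d = 0
    · obtain ⟨w, hwK, hw, hwe⟩ := exists_third2 hK e
      refine ⟨w, hwK, hw, by rw [real_inner_comm]; exact hwe, ?_⟩
      rw [h0, norm_zero, zero_smul]
    · refine ⟨‖d‖⁻¹ • d, K.smul_mem _ hdK, unit_inv h0, ?_, ?_⟩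
      · rw [inner_smul_right, hed, mul_zero]
      · rw [smul_smul, mul_inv_cancel₀ (norm_ne_zero_iff.2 h0), one_smul]
  have hs1 : s ^ 2 ≤ 1 := by nlinarith [sq_nonneg ‖d‖]
  have hs2 : -1 ≤ s ∧ s ≤ 1 := abs_le.1 ((sq_le_one_iff_abs_le_one s).1 hs1)
  have ho : Orth e w := ⟨he, hw, hew⟩
  refine ⟨w, hwK, ho, Real.arccos s, ?_⟩
  unfold rt
  rw [Real.cos_arccos hs2.1 hs2.2, Real.sin_arccos, ← hdn, Real.sqrt_sq (norm_nonneg _), ho.vv,
    ho.wv]
  have h2 : e' = s • e + ‖d‖ • w := by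
    rw [← hdw, hd]
    abel
  rw [h2]
  module

/-- invariance under plane rotations gives invariance under all isometries that fix the
complement -/
theorem rotFix_of {K K' : Submodule ℝ E} (hK' : K' = Kᗮ) (hdim : 2 ≤ Module.finrank ℝ K')
    {L : Set (E × E)} (hpl : ∀ z ∈ L, ∃ e u, e ∈ K' ∧ u ∈ K ∧ Orth e u ∧ InPl e u z.1 ∧
      InPl e u z.2)
    (hrot : ∀ v ∈ K', ∀ w ∈ K', Orth v w → ∀ t, ∀ z ∈ L, (rt v w t z.1, rt v w t z.2) ∈ L) :
    RotFix K L := by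
  intro g hg _ z hz
  obtain ⟨e, u, heK, huK, ho, p1, p2⟩ := hpl z hz
  have hgK : g e ∈ K' := by
    rw [hK', Submodule.mem_orthogonal']
    intro x hx
    have h1 : (inner ℝ (g e) x : ℝ) = inner ℝ (g e) (g x) := by rw [hg x hx]
    rw [h1, g.inner_map_map]
    rw [hK'] at heK
    exact Submodule.inner_left_of_mem_orthogonal hx heK
  obtain ⟨w, hwK, how, t, ht⟩ := rot_move hdim ho.v1 ((g.norm_map e).trans ho.v1) heK hgK
  have hu : rt e w t u = u := by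
    refine how.rt_fix ?_ ?_ t
    · exact ho.vw
    · rw [hK'] at hwK
      exact Submodule.inner_left_of_mem_orthogonal huK hwK
  have hx : ∀ x, InPl e u x → rt e w t x = g x := by
    intro x hx
    have h1 : rtE e w t x = g x := by
      rw [hx, map_add, map_add, map_smul, map_smul, map_smul, map_smul, how.rtE_apply,
        how.rtE_apply, ht, hu, hg u huK]
    rw [← how.rtE_apply, h1]
  have h3 := hrot e heK w hwK how t z hz
  rw [hx _ p1, hx _ p2] at h3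
  exact h3

/-- **Main theorem, for groups.** -/
theorem main_grp {n : ℕ} (hn : Module.finrank ℝ E = n + 1) {F : Submodule ℝ E}
    (hF : F ≠ ⊥) (hF' : F ≠ ⊤) {L : Set (E × E)}
    (hL : IsClosedExactLagrangian n (Sph E) L) {G : Subgroup (E ≃ₗᵢ[ℝ] E)} (hT : InfTrans F G)
    (hG : ∀ g ∈ G, ∀ z ∈ L, (g z.1, g z.2) ∈ L) :
    HamIsotopicToZero (Sph E) L := by
  have d1 := F.finrank_add_finrank_orthogonal
  have d2 : Module.finrank ℝ F ≠ 0 := fun h => hF (Submodule.finrank_eq_zero.1 h)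
  have d3 : Module.finrank ℝ Fᗮ ≠ 0 := fun h => hF' (by
    have h3 := Submodule.finrank_eq_zero.1 h
    rwa [Submodule.orthogonal_eq_bot_iff] at h3)
  obtain ⟨u₁, hu₁, hu₁0⟩ := Submodule.exists_mem_ne_zero_of_ne_bot hF
  have hb : Fᗮ ≠ ⊥ := fun h => d3 (by rw [h, finrank_bot])
  obtain ⟨e₁, he₁, he₁0⟩ := Submodule.exists_mem_ne_zero_of_ne_bot hb
  have hu₀ := unit_inv hu₁0
  have he₀ := unit_inv he₁0
  have hu₀F : ‖u₁‖⁻¹ • u₁ ∈ F := F.smul_mem _ hu₁
  have he₀F : ‖e₁‖⁻¹ • e₁ ∈ Fᗮ := Fᗮ.smul_mem _ he₁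
  set u₀ : E := ‖u₁‖⁻¹ • u₁
  set e₀ : E := ‖e₁‖⁻¹ • e₁
  have h0 : Orth e₀ u₀ := ⟨he₀, hu₀, Submodule.inner_left_of_mem_orthogonal hu₀F he₀F⟩
  -- the moments vanish
  have hmom : ∀ v w, Orth v w → ((v ∈ F ∧ w ∈ F) ∨ (v ∈ Fᗮ ∧ w ∈ Fᗮ)) → ∀ z ∈ L,
      (inner ℝ v z.1 * inner ℝ w z.2 : ℝ) = inner ℝ w z.1 * inner ℝ v z.2 := by
    intro v w ho hvw z hz
    obtain ⟨e, u, he, hu, heu, p1⟩ := exists_xplane he₀ he₀F hu₀ hu₀F z.1
    have h1 := span_moment hL hG hz p1 (XF_span hT ho hvw hu he heu)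
    rw [← ho.XF_lin, ← p1] at h1
    unfold XF at h1
    rw [inner_sub_right, inner_smul_right, inner_smul_right, real_inner_comm w z.2,
      real_inner_comm v z.2] at h1
    linarith
  have hplane : ∀ z ∈ L, ∃ e u, e ∈ Fᗮ ∧ u ∈ F ∧ Orth e u ∧ InPl e u z.1 ∧ InPl e u z.2 :=
    fun z hz => exists_plane3 he₀ he₀F hu₀ hu₀F
      (fun v hv w hw ho => hmom v w ho (Or.inl ⟨hv, hw⟩) z hz)
      (fun v hv w hw ho => hmom v w ho (Or.inr ⟨hv, hw⟩) z hz)
  -- the rotation fields are tangent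
  have hrot : ∀ v w, Orth v w → ((v ∈ F ∧ w ∈ F) ∨ (v ∈ Fᗮ ∧ w ∈ Fᗮ)) →
      ∀ t, ∀ z ∈ L, (rt v w t z.1, rt v w t z.2) ∈ L := by
    intro v w ho hvw
    refine rt_mem hL ho fun z hz => ?_
    obtain ⟨e, u, he, hu, heu, p1, p2⟩ := hplane z hz
    have h1 := span_tangent hL hG hz p1 p2 (XF_span hT ho hvw hu he heu)
    rwa [← ho.XF_lin, ← ho.XF_lin, ← p1, ← p2] at h1
  have hR1 : 2 ≤ Module.finrank ℝ Fᗮ → RotFix F L := fun hd =>
    rotFix_of rfl hd hplane fun v hv w hw ho => hrot v w ho (Or.inr ⟨hv, hw⟩)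
  have hR2 : 2 ≤ Module.finrank ℝ F → RotFix Fᗮ L := fun hd =>
    rotFix_of (Submodule.orthogonal_orthogonal F).symm hd (fun z hz => by
      obtain ⟨e, u, he, hu, heu, p1, p2⟩ := hplane z hz
      have hsw : ∀ x : E, InPl e u x → InPl u e x := by
        intro x hx
        unfold InPl at *
        rw [add_comm]
        exact hx
      exact ⟨u, e, hu, he, sw heu, hsw _ p1, hsw _ p2⟩)
      fun v hv w hw ho => hrot v w ho (Or.inl ⟨hv, hw⟩)
  rcases Nat.lt_or_ge (Module.finrank ℝ F) 2 with h3 | h3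
  · rcases Nat.lt_or_ge (Module.finrank ℝ Fᗮ) 2 with h4 | h4
    · have hn1 : n = 1 := by omega
      subst hn1
      exact main_one hn h0 hL
    · exact main_line hn (F := F) (by omega) (by omega) hL (hR1 h4)
  rcases Nat.lt_or_ge (Module.finrank ℝ Fᗮ) 2 with h4 | h4
  · exact main_line hn (F := Fᗮ) (by omega) (by omega) hL (hR2 h3)
  exact main_two hn h3 h4 hL (hR2 h3) (hR1 h4)

end Vale.Agent.P220.R2.H562
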