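import Vale.Agent.P220.R2.H180.Iso
import Vale.Agent.P220.R2.H562.Fam

/-!
# The exact isotopy of the zero section given by a family of arcs and a projection
-/

open Set Filter Topology
open scoped ContDiff

set_option linter.unusedSectionVars false

namespace Vale.Agent.P220.R2.H562

open H57 H180

variable {E : Type} [NormedAddCommGroup E] [InnerProductSpace ℝ E] [FiniteDimensional ℝ E]

/-- an orthogonal projection -/
structure IsPr (P : E →L[ℝ] E) : Prop where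
  idem : ∀ x, P (P x) = P x
  symm : ∀ x y, (inner ℝ (P x) y : ℝ) = inner ℝ x (P y)

/-- the squared length of the projection -/
noncomputable def ta (P : E →L[ℝ] E) (x : E) : ℝ := inner ℝ (P x) x

/-- one minus twice the complex square of the projection -/
noncomputable def wf (P : E →L[ℝ] E) (z : E × E) : ℂ :=
  1 - 2 * ((((1 + ‖z.2‖ ^ 2) * ‖P z.1‖ ^ 2 - ‖P z.2‖ ^ 2 : ℝ) : ℂ) +
    ((2 * (√(1 + ‖z.2‖ ^ 2) * inner ℝ (P z.1) (P z.2)) : ℝ) : ℂ) * Complex.I)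

namespace IsPr

variable {P : E →L[ℝ] E} (hP : IsPr P)

include hP

theorem pp (x y : E) : (inner ℝ (P x) (P y) : ℝ) = inner ℝ (P x) y := by
  rw [← hP.symm, hP.idem]

theorem pq (x y : E) : (inner ℝ (P x) (y - P y) : ℝ) = 0 := by
  rw [inner_sub_right, hP.pp, sub_self]

theorem qp (x y : E) : (inner ℝ (x - P x) (P y) : ℝ) = 0 := by
  rw [real_inner_comm, hP.pq]

theorem qq (x y : E) : (inner ℝ (x - P x) (y - P y) : ℝ) = inner ℝ x y - inner ℝ (P x) y := by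
  rw [inner_sub_left, hP.pq, sub_zero, inner_sub_right, hP.symm]

theorem Pq (x : E) : P (x - P x) = 0 := by rw [map_sub, hP.idem, sub_self]

theorem ta_eq (x : E) : ta P x = ‖P x‖ ^ 2 := by
  rw [← real_inner_self_eq_norm_sq, hP.pp]; rfl

theorem ta_mem {x : E} (hx : ‖x‖ = 1) : ta P x ∈ Icc (0 : ℝ) 1 := by
  constructor
  · rw [hP.ta_eq]; positivity
  · have h1 : (0 : ℝ) ≤ ‖x - P x‖ ^ 2 := by positivity
    rw [← real_inner_self_eq_norm_sq, hP.qq, real_inner_self_eq_norm_sq, hx] at h1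
    unfold ta
    linarith

end IsPr

/-- real part -/
noncomputable def xr (P : E →L[ℝ] E) (A B : ℝ × ℝ → ℂ) (x : ℝ × (E × E)) : E :=
  (A (x.1, ta P x.2.1)).re • P x.2.1 + (B (x.1, ta P x.2.1)).re • (x.2.1 - P x.2.1)

/-- imaginary part -/
noncomputable def xi (P : E →L[ℝ] E) (A B : ℝ × ℝ → ℂ) (x : ℝ × (E × E)) : E :=
  (A (x.1, ta P x.2.1)).im • P x.2.1 + (B (x.1, ta P x.2.1)).im • (x.2.1 - P x.2.1)

/-- the isotopy -/
noncomputable def iso2 (P : E →L[ℝ] E) (G : ℝ → ℝ) (A B : ℝ × ℝ → ℂ) (x : ℝ × (E × E)) : E × E :=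
  (G (1 + ‖xi P A B x‖ ^ 2) • xr P A B x, xi P A B x)

/-- the density of the primitive -/
noncomputable def dens2 (G : ℝ → ℝ) (A B : ℝ × ℝ → ℂ) (x : ℝ × ℝ) : ℝ :=
  (x.2 * ((A x).im * (fderiv ℝ A x (0, 1)).re) + (1 - x.2) * ((B x).im *
    (fderiv ℝ B x (0, 1)).re) + ((A x).im * (A x).re - (B x).im * (B x).re) / 2) *
    G (1 + x.2 * (A x).im ^ 2 + (1 - x.2) * (B x).im ^ 2)

/-- the primitive -/
noncomputable def prim2 (P : E →L[ℝ] E) (G : ℝ → ℝ) (A B : ℝ × ℝ → ℂ) (x : ℝ × (E × E)) : ℝ :=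
  ∫ r in (0 : ℝ)..(ta P x.2.1), dens2 G A B (x.1, r)

section

variable {P : E →L[ℝ] E} {G : ℝ → ℝ} {c : ℝ → ℂ} {C A B : ℝ × ℝ → ℂ}

theorem ta_smooth (P : E →L[ℝ] E) : ContDiff ℝ ∞ (ta P) := P.contDiff.inner ℝ contDiff_id

theorem st_smooth2 (P : E →L[ℝ] E) :
    ContDiff ℝ ∞ fun x : ℝ × (E × E) => ((x.1, ta P x.2.1) : ℝ × ℝ) :=
  contDiff_fst.prodMk ((ta_smooth P).comp (contDiff_fst.comp contDiff_snd))

theorem q1_smooth : ContDiff ℝ ∞ fun x : ℝ × (E × E) => x.2.1 := contDiff_fst.comp contDiff_snd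

theorem xr_smooth (hA : ContDiff ℝ ∞ A) (hB : ContDiff ℝ ∞ B) : ContDiff ℝ ∞ (xr P A B) :=
  ((Complex.reCLM.contDiff.comp (hA.comp (st_smooth2 P))).smul (P.contDiff.comp q1_smooth)).add
    ((Complex.reCLM.contDiff.comp (hB.comp (st_smooth2 P))).smul
      (q1_smooth.sub (P.contDiff.comp q1_smooth)))

theorem xi_smooth (hA : ContDiff ℝ ∞ A) (hB : ContDiff ℝ ∞ B) : ContDiff ℝ ∞ (xi P A B) :=
  ((Complex.imCLM.contDiff.comp (hA.comp (st_smooth2 P))).smul (P.contDiff.comp q1_smooth)).add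
    ((Complex.imCLM.contDiff.comp (hB.comp (st_smooth2 P))).smul
      (q1_smooth.sub (P.contDiff.comp q1_smooth)))

theorem iso2_smooth (hG : ContDiff ℝ ∞ G) (hA : ContDiff ℝ ∞ A) (hB : ContDiff ℝ ∞ B) :
    ContDiff ℝ ∞ (iso2 P G A B) :=
  ((hG.comp (contDiff_const.add ((contDiff_norm_sq ℝ).comp (xi_smooth hA hB)))).smul
    (xr_smooth hA hB)).prodMk (xi_smooth hA hB)

theorem dens2_smooth (hG : ContDiff ℝ ∞ G) (hA : ContDiff ℝ ∞ A) (hB : ContDiff ℝ ∞ B) :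
    ContDiff ℝ ∞ (dens2 G A B) := by
  have c1 : ContDiff ℝ ∞ fun x => (A x).im := Complex.imCLM.contDiff.comp hA
  have c1' : ContDiff ℝ ∞ fun x => (A x).re := Complex.reCLM.contDiff.comp hA
  have c2 : ContDiff ℝ ∞ fun x => (B x).im := Complex.imCLM.contDiff.comp hB
  have c3 : ContDiff ℝ ∞ fun x => (B x).re := Complex.reCLM.contDiff.comp hB
  have c4 : ContDiff ℝ ∞ fun x => (fderiv ℝ A x (0, 1)).re := Complex.reCLM.contDiff.comp
    ((hA.fderiv_right (m := ∞) (by simp)).clm_apply contDiff_const)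
  have c5 : ContDiff ℝ ∞ fun x => (fderiv ℝ B x (0, 1)).re := Complex.reCLM.contDiff.comp
    ((hB.fderiv_right (m := ∞) (by simp)).clm_apply contDiff_const)
  have c6 : ContDiff ℝ ∞ fun x : ℝ × ℝ => x.2 := contDiff_snd
  have c7 : ContDiff ℝ ∞ fun x : ℝ × ℝ => 1 - x.2 := contDiff_const.sub contDiff_snd
  exact (((c6.mul (c1.mul c4)).add (c7.mul (c2.mul c5))).add
    (((c1.mul c1').sub (c2.mul c3)).div_const 2)).mul
    (hG.comp ((contDiff_const.add (c6.mul (c1.pow 2))).add (c7.mul (c2.pow 2))))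

theorem prim2_smooth (hG : ContDiff ℝ ∞ G) (hA : ContDiff ℝ ∞ A) (hB : ContDiff ℝ ∞ B) :
    ContDiff ℝ ∞ (prim2 P G A B) :=
  (H64.contDiff_primitive (dens2_smooth hG hA hB)).comp (st_smooth2 P)

/-- all data on the zero section -/
structure Pt2 (P : E →L[ℝ] E) (C A B : ℝ × ℝ → ℂ) (s : ℝ) (z : E × E) : Prop where
  a2 : ‖xr P A B (s, z)‖ ^ 2 = 1 + ‖xi P A B (s, z)‖ ^ 2
  ay : inner ℝ (xr P A B (s, z)) (xi P A B (s, z)) = (0 : ℝ)
  y2 : ‖xi P A B (s, z)‖ ^ 2 = ta P z.1 * (A (s, ta P z.1)).im ^ 2 +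
    (1 - ta P z.1) * (B (s, ta P z.1)).im ^ 2
  Pr : P (xr P A B (s, z)) = (A (s, ta P z.1)).re • P z.1
  Pi : P (xi P A B (s, z)) = (A (s, ta P z.1)).im • P z.1
  rr : ‖P (xr P A B (s, z))‖ ^ 2 - ‖P (xi P A B (s, z))‖ ^ 2 = (1 - (C (s, ta P z.1)).re) / 2
  ri : inner ℝ (P (xr P A B (s, z))) (P (xi P A B (s, z))) = -(C (s, ta P z.1)).im / 4

theorem IsFam2.sum (hF : IsFam2 c C A B) (s : ℝ) {τ : ℝ} (hτ : τ ∈ Icc (0 : ℝ) 1) :
    τ * A (s, τ) ^ 2 + (1 - τ) * B (s, τ) ^ 2 = 1 := by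
  have h1 := hF.relA s τ hτ
  have h2 := hF.relB s τ hτ
  linear_combination (-1 / 2 : ℂ) * h1 - (1 / 2 : ℂ) * h2

theorem IsFam2.pt (hF : IsFam2 c C A B) (hP : IsPr P) (s : ℝ) {z : E × E} (hz : ‖z.1‖ = 1) :
    Pt2 P C A B s z := by
  have hτ := hP.ta_mem hz
  have hsum := hF.sum s hτ
  have hrel := hF.relA s _ hτ
  have pp : (inner ℝ (P z.1) (P z.1) : ℝ) = ta P z.1 := by rw [hP.pp]; rfl
  have pq := hP.pq z.1 z.1
  have qp := hP.qp z.1 z.1
  have qq : (inner ℝ (z.1 - P z.1) (z.1 - P z.1) : ℝ) = 1 - ta P z.1 := by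
    rw [hP.qq, real_inner_self_eq_norm_sq, hz]
    unfold ta
    ring
  set τ := ta P z.1 with hτd
  set X := A (s, τ) with hX
  set Y := B (s, τ) with hY
  have h1 := congrArg Complex.re hsum
  have h2 := congrArg Complex.im hsum
  have h3 := congrArg Complex.re hrel
  have h4 := congrArg Complex.im hrel
  simp only [sq, Complex.add_re, Complex.mul_re, Complex.add_im, Complex.mul_im, Complex.ofReal_re,
    Complex.ofReal_im, Complex.sub_re, Complex.sub_im, Complex.one_re, Complex.one_im,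
    Complex.re_ofNat, Complex.im_ofNat] at h1 h2 h3 h4
  have ha : xr P A B (s, z) = X.re • P z.1 + Y.re • (z.1 - P z.1) := rfl
  have hy : xi P A B (s, z) = X.im • P z.1 + Y.im • (z.1 - P z.1) := rfl
  have ha2 : ‖xr P A B (s, z)‖ ^ 2 = τ * X.re ^ 2 + (1 - τ) * Y.re ^ 2 := by
    rw [← real_inner_self_eq_norm_sq, ha]
    simp only [inner_add_left, inner_add_right, inner_smul_left, inner_smul_right, pp, pq, qp, qq]
    simp
    ring
  have hy2 : ‖xi P A B (s, z)‖ ^ 2 = τ * X.im ^ 2 + (1 - τ) * Y.im ^ 2 := by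
    rw [← real_inner_self_eq_norm_sq, hy]
    simp only [inner_add_left, inner_add_right, inner_smul_left, inner_smul_right, pp, pq, qp, qq]
    simp
    ring
  have hPr : P (xr P A B (s, z)) = X.re • P z.1 := by
    rw [ha, map_add, map_smul, map_smul, hP.idem, hP.Pq, smul_zero, add_zero]
  have hPi : P (xi P A B (s, z)) = X.im • P z.1 := by
    rw [hy, map_add, map_smul, map_smul, hP.idem, hP.Pq, smul_zero, add_zero]
  refine ⟨?_, ?_, hy2, hPr, hPi, ?_, ?_⟩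
  · rw [ha2, hy2]
    linear_combination h1
  · rw [ha, hy]
    simp only [inner_add_left, inner_add_right, inner_smul_left, inner_smul_right, pp, pq, qp, qq]
    simp
    linear_combination h2 / 2
  · rw [hPr, hPi, ← real_inner_self_eq_norm_sq, ← real_inner_self_eq_norm_sq]
    simp only [inner_smul_left, inner_smul_right, pp]
    simp
    linear_combination -h3 / 2
  · rw [hPr, hPi]
    simp only [inner_smul_left, inner_smul_right, pp]
    simp
    linear_combination -h4 / 4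

theorem Pt2.Gval {s : ℝ} {z : E × E} (_ : Pt2 P C A B s z) (hG : ∀ t, 1 / 4 ≤ t → G t = (√t)⁻¹) :
    G (1 + ‖xi P A B (s, z)‖ ^ 2) = (√(1 + ‖xi P A B (s, z)‖ ^ 2))⁻¹ :=
  hG _ (by nlinarith [sq_nonneg ‖xi P A B (s, z)‖])

theorem Pt2.norm {s : ℝ} {z : E × E} (h : Pt2 P C A B s z) (hG : ∀ t, 1 / 4 ≤ t → G t = (√t)⁻¹) :
    ‖(iso2 P G A B (s, z)).1‖ = 1 := by
  have h0 : 0 < 1 + ‖xi P A B (s, z)‖ ^ 2 := by positivity
  show ‖G (1 + ‖xi P A B (s, z)‖ ^ 2) • xr P A B (s, z)‖ = 1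
  rw [h.Gval hG, norm_smul, norm_inv, Real.norm_eq_abs, abs_of_nonneg (Real.sqrt_nonneg _), ← h.a2,
    Real.sqrt_sq (norm_nonneg _)]
  refine inv_mul_cancel₀ ?_
  intro h1
  have := h.a2
  rw [h1] at this
  nlinarith [sq_nonneg ‖xi P A B (s, z)‖]

theorem Pt2.orth {s : ℝ} {z : E × E} (h : Pt2 P C A B s z) :
    inner ℝ (iso2 P G A B (s, z)).1 (iso2 P G A B (s, z)).2 = (0 : ℝ) := by
  show inner ℝ (G (1 + ‖xi P A B (s, z)‖ ^ 2) • xr P A B (s, z)) (xi P A B (s, z)) = (0 : ℝ)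
  rw [inner_smul_left, h.ay, mul_zero]

theorem Pt2.inv {s : ℝ} {z : E × E} (h : Pt2 P C A B s z) (hG : ∀ t, 1 / 4 ≤ t → G t = (√t)⁻¹) :
    xr P A B (s, z) = √(1 + ‖(iso2 P G A B (s, z)).2‖ ^ 2) • (iso2 P G A B (s, z)).1 := by
  have h0 : 0 < 1 + ‖xi P A B (s, z)‖ ^ 2 := by positivity
  show xr P A B (s, z) = √(1 + ‖xi P A B (s, z)‖ ^ 2) • G (1 + ‖xi P A B (s, z)‖ ^ 2) •
    xr P A B (s, z)
  rw [h.Gval hG, smul_smul, mul_inv_cancel₀ (Real.sqrt_pos.2 h0).ne', one_smul]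

/-- the height of a point of the isotopy -/
theorem Pt2.wf {s : ℝ} {z : E × E} (h : Pt2 P C A B s z) (hG : ∀ t, 1 / 4 ≤ t → G t = (√t)⁻¹) :
    wf P (iso2 P G A B (s, z)) = C (s, ta P z.1) := by
  have h0 : 0 < 1 + ‖xi P A B (s, z)‖ ^ 2 := by positivity
  have h1 := h.inv hG
  have e2 : (iso2 P G A B (s, z)).2 = xi P A B (s, z) := rfl
  rw [e2] at h1
  have hsq : √(1 + ‖xi P A B (s, z)‖ ^ 2) ^ 2 = 1 + ‖xi P A B (s, z)‖ ^ 2 := Real.sq_sqrt h0.le
  have h2 : P (xr P A B (s, z)) = √(1 + ‖xi P A B (s, z)‖ ^ 2) • P (iso2 P G A B (s, z)).1 := by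
    conv_lhs => rw [h1]
    rw [map_smul]
  have h3 := h.rr
  have h4 := h.ri
  rw [h2] at h3 h4
  rw [norm_smul, mul_pow, Real.norm_eq_abs, sq_abs, hsq] at h3
  rw [inner_smul_left] at h4
  simp only [conj_trivial] at h4
  unfold H562.wf
  rw [e2, h3, h4]
  apply Complex.ext
  · simp
    ring
  · simp
    ring

/-! ### derivatives -/

theorem ta_line (hP : IsPr P) (z v : E × E) :
    HasDerivAt (fun t : ℝ => ta P (z + t • v).1) (2 * inner ℝ (P z.1) v.1) 0 := by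
  have h0 : (inner ℝ (P v.1) z.1 : ℝ) = inner ℝ (P z.1) v.1 := by
    rw [hP.symm, real_inner_comm]
  have h1 : (fun t : ℝ => ta P (z + t • v).1) = fun t : ℝ =>
      (ta P z.1 + t * (2 * inner ℝ (P z.1) v.1)) + t ^ 2 * inner ℝ (P v.1) v.1 := by
    funext t
    simp only [ta, Prod.fst_add, Prod.smul_fst, map_add, map_smul, inner_add_left, inner_add_right,
      inner_smul_left, inner_smul_right, h0, conj_trivial]
    ring
  rw [h1]
  have h2 := (((hasDerivAt_id (0 : ℝ)).mul_const (2 * inner ℝ (P z.1) v.1)).const_add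
    (ta P z.1)).add (((hasDerivAt_id (0 : ℝ)).pow 2).mul_const (inner ℝ (P v.1) v.1 : ℝ))
  refine h2.congr_deriv ?_
  simp

theorem P_line (P : E →L[ℝ] E) (z v : E × E) :
    HasDerivAt (fun t : ℝ => P (z + t • v).1) (P v.1) 0 := by
  have h1 : (fun t : ℝ => P (z + t • v).1) = fun t : ℝ => P z.1 + t • P v.1 := by
    funext t
    simp only [Prod.fst_add, Prod.smul_fst, map_add, map_smul]
  rw [h1]
  simpa using ((hasDerivAt_id (0 : ℝ)).smul_const (P v.1)).const_add (P z.1)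

theorem Q_line (P : E →L[ℝ] E) (z v : E × E) :
    HasDerivAt (fun t : ℝ => (z + t • v).1 - P (z + t • v).1) (v.1 - P v.1) 0 := by
  have h1 : HasDerivAt (fun t : ℝ => (z + t • v).1) v.1 0 := by
    have := ((hasDerivAt_id (0 : ℝ)).smul_const v.1).const_add z.1
    simpa using this
  exact h1.sub (P_line P z v)

theorem A_line (hP : IsPr P) (hA : ContDiff ℝ ∞ A) (s : ℝ) (z v : E × E) :
    HasDerivAt (fun t : ℝ => A (s, ta P (z + t • v).1))
      ((2 * inner ℝ (P z.1) v.1 : ℝ) • fderiv ℝ A (s, ta P z.1) (0, 1)) 0 := by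
  have h1 : HasFDerivAt A (fderiv ℝ A (s, ta P z.1))
      ((fun t : ℝ => ((s, ta P (z + t • v).1) : ℝ × ℝ)) 0) := by
    simp only [zero_smul, add_zero]
    exact (hA.differentiable (by simp) _).hasFDerivAt
  have h2 := h1.comp_hasDerivAt (0 : ℝ) ((hasDerivAt_const (0 : ℝ) s).prodMk (ta_line hP z v))
  refine h2.congr_deriv ?_
  rw [← map_smul]
  simp

theorem dxr (hP : IsPr P) (hA : ContDiff ℝ ∞ A) (hB : ContDiff ℝ ∞ B) (s : ℝ) (z v : E × E) :
    fderiv ℝ (xr P A B) (s, z) (0, v) =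
      ((A (s, ta P z.1)).re • P v.1 +
        ((2 * inner ℝ (P z.1) v.1) * (fderiv ℝ A (s, ta P z.1) (0, 1)).re) • P z.1) +
      ((B (s, ta P z.1)).re • (v.1 - P v.1) +
        ((2 * inner ℝ (P z.1) v.1) * (fderiv ℝ B (s, ta P z.1) (0, 1)).re) • (z.1 - P z.1)) := by
  have h1 := fderiv_line (xr_smooth (P := P) hA hB) s z v
  have h2 : HasDerivAt (fun t : ℝ => (A (s, ta P (z + t • v).1)).re) _ 0 :=
    Complex.reCLM.hasFDerivAt.comp_hasDerivAt (0 : ℝ) (A_line hP hA s z v)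
  have h3 : HasDerivAt (fun t : ℝ => (B (s, ta P (z + t • v).1)).re) _ 0 :=
    Complex.reCLM.hasFDerivAt.comp_hasDerivAt (0 : ℝ) (A_line hP hB s z v)
  have h4 := (h2.smul (P_line P z v)).add (h3.smul (Q_line P z v))
  have h5 := h1.unique h4
  rw [h5]
  simp

theorem dxi (hP : IsPr P) (hA : ContDiff ℝ ∞ A) (hB : ContDiff ℝ ∞ B) (s : ℝ) (z v : E × E) :
    fderiv ℝ (xi P A B) (s, z) (0, v) =
      ((A (s, ta P z.1)).im • P v.1 +
        ((2 * inner ℝ (P z.1) v.1) * (fderiv ℝ A (s, ta P z.1) (0, 1)).im) • P z.1) +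
      ((B (s, ta P z.1)).im • (v.1 - P v.1) +
        ((2 * inner ℝ (P z.1) v.1) * (fderiv ℝ B (s, ta P z.1) (0, 1)).im) • (z.1 - P z.1)) := by
  have h1 := fderiv_line (xi_smooth (P := P) hA hB) s z v
  have h2 : HasDerivAt (fun t : ℝ => (A (s, ta P (z + t • v).1)).im) _ 0 :=
    Complex.imCLM.hasFDerivAt.comp_hasDerivAt (0 : ℝ) (A_line hP hA s z v)
  have h3 : HasDerivAt (fun t : ℝ => (B (s, ta P (z + t • v).1)).im) _ 0 :=
    Complex.imCLM.hasFDerivAt.comp_hasDerivAt (0 : ℝ) (A_line hP hB s z v)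
  have h4 := (h2.smul (P_line P z v)).add (h3.smul (Q_line P z v))
  have h5 := h1.unique h4
  rw [h5]
  simp

theorem diso2_snd (hG : ContDiff ℝ ∞ G) (hA : ContDiff ℝ ∞ A) (hB : ContDiff ℝ ∞ B) (s : ℝ)
    (z v : E × E) :
    (fderiv ℝ (iso2 P G A B) (s, z) (0, v)).2 = fderiv ℝ (xi P A B) (s, z) (0, v) := by
  have h1 := fderiv_line (iso2_smooth (P := P) hG hA hB) s z v
  have h2 : HasDerivAt (fun t : ℝ => (iso2 P G A B (s, z + t • v)).2) _ 0 :=
    hasFDerivAt_snd.comp_hasDerivAt (0 : ℝ) h1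
  exact h2.unique (fderiv_line (xi_smooth (P := P) hA hB) s z v)

theorem diso2_fst (hG : ContDiff ℝ ∞ G) (hA : ContDiff ℝ ∞ A) (hB : ContDiff ℝ ∞ B) (s : ℝ)
    (z v : E × E) : ∃ k : ℝ, (fderiv ℝ (xi P A B) (s, z) (0, v) = 0 → k = 0) ∧
    (fderiv ℝ (iso2 P G A B) (s, z) (0, v)).1 = k • xr P A B (s, z) +
      G (1 + ‖xi P A B (s, z)‖ ^ 2) • fderiv ℝ (xr P A B) (s, z) (0, v) := by
  have h1 := fderiv_line (iso2_smooth (P := P) hG hA hB) s z v
  have h2 : HasDerivAt (fun t : ℝ => (iso2 P G A B (s, z + t • v)).1) _ 0 :=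
    hasFDerivAt_fst.comp_hasDerivAt (0 : ℝ) h1
  have hy := fderiv_line (xi_smooth (P := P) hA hB) s z v
  have ha := fderiv_line (xr_smooth (P := P) hA hB) s z v
  have h3 := (hy.norm_sq).const_add 1
  have h4 : HasDerivAt G (deriv G (1 + ‖xi P A B (s, z + (0 : ℝ) • v)‖ ^ 2))
      (1 + ‖xi P A B (s, z + (0 : ℝ) • v)‖ ^ 2) := (hG.differentiable (by simp) _).hasDerivAt
  have h5 := h4.comp (0 : ℝ) h3
  have h6 := h5.smul ha
  have h7 := h2.unique h6
  refine ⟨deriv G (1 + ‖xi P A B (s, z)‖ ^ 2) *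
      (2 * inner ℝ (xi P A B (s, z)) (fderiv ℝ (xi P A B) (s, z) (0, v))), fun h => by
    rw [h]
    simp, h7.trans ?_⟩
  simp only [Function.comp_apply, zero_smul, add_zero]
  rw [add_comm]

theorem dprim2 (hP : IsPr P) (hG : ContDiff ℝ ∞ G) (hA : ContDiff ℝ ∞ A) (hB : ContDiff ℝ ∞ B)
    (s : ℝ) (z v : E × E) : fderiv ℝ (prim2 P G A B) (s, z) (0, v) =
      dens2 G A B (s, ta P z.1) * (2 * inner ℝ (P z.1) v.1) := by
  have h1 := fderiv_line (prim2_smooth (P := P) hG hA hB) s z v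
  have hc : Continuous fun r : ℝ => dens2 G A B (s, r) :=
    (dens2_smooth hG hA hB).continuous.comp (by fun_prop)
  have h2 : HasDerivAt (fun y => ∫ r in (0 : ℝ)..y, dens2 G A B (s, r))
      (dens2 G A B (s, ta P (z + (0 : ℝ) • v).1)) (ta P (z + (0 : ℝ) • v).1) :=
    intervalIntegral.integral_hasDerivAt_right (hc.intervalIntegrable _ _)
      (hc.stronglyMeasurableAtFilter _ _) hc.continuousAt
  have h3 := h2.comp (0 : ℝ) (ta_line hP z v)
  have h4 := h1.unique h3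
  rw [h4]
  simp

/-- functions that agree on the unit interval have the same derivatives there -/
theorem deriv_eq_of_eqOn {f g : ℝ → ℂ} {f' g' : ℂ} {x : ℝ} (hx : x ∈ Icc (0 : ℝ) 1)
    (hf : HasDerivAt f f' x) (hg : HasDerivAt g g' x) (h : ∀ y ∈ Icc (0 : ℝ) 1, f y = g y) :
    f' = g' := by
  have h1 := hf.hasDerivWithinAt (s := Icc (0 : ℝ) 1)
  have h2 : HasDerivWithinAt f g' (Icc (0 : ℝ) 1) x :=
    (hg.hasDerivWithinAt (s := Icc (0 : ℝ) 1)).congr h (h x hx)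
  exact (uniqueDiffOn_Icc zero_lt_one x hx).eq_deriv _ h1 h2

theorem slice_deriv (hA : ContDiff ℝ ∞ A) (s t : ℝ) :
    HasDerivAt (fun r => A (s, r)) (fderiv ℝ A (s, t) (0, 1)) t := by
  have h1 : HasFDerivAt A (fderiv ℝ A (s, t)) (s, t) := (hA.differentiable (by simp) _).hasFDerivAt
  exact h1.comp_hasDerivAt t ((hasDerivAt_const t s).prodMk (hasDerivAt_id t))

/-- the derivative of the arc in terms of the first square root -/
theorem IsFam2.dC_A (hF : IsFam2 c C A B) (s : ℝ) {τ : ℝ} (hτ : τ ∈ Icc (0 : ℝ) 1) :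
    fderiv ℝ C (s, τ) (0, 1) =
      -(4 * A (s, τ) * (A (s, τ) / 2 + τ * fderiv ℝ A (s, τ) (0, 1))) := by
  have h1 := slice_deriv hF.hC s τ
  have h2 := slice_deriv hF.hA s τ
  have h3 : HasDerivAt (fun r : ℝ => 1 - 2 * (r : ℂ) * A (s, r) ^ 2)
      (-(4 * A (s, τ) * (A (s, τ) / 2 + τ * fderiv ℝ A (s, τ) (0, 1)))) τ := by
    have d1 : HasDerivAt (fun r : ℝ => 2 * (r : ℂ)) (2 * 1) τ := by
      have := ((hasDerivAt_id τ).ofReal_comp).const_mul (2 : ℂ)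
      simpa using this
    have d2 := (d1.mul (h2.pow 2)).const_sub 1
    refine d2.congr_deriv ?_
    simp
    ring
  refine deriv_eq_of_eqOn hτ h1 h3 fun y hy => ?_
  have := hF.relA s y hy
  linear_combination -this

end

end Vale.Agent.P220.R2.H562
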