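import Vale.Agent.P220.R2.H180.Moment
import Vale.Agent.P220.R2.H562.Iso

/-!
# The zero section is Hamiltonian isotopic to the Lagrangian over an arc
-/

open Set Filter Topology
open scoped ContDiff

set_option linter.unusedSectionVars false

namespace Vale.Agent.P220.R2.H562

open H57 H180

variable {E : Type} [NormedAddCommGroup E] [InnerProductSpace ℝ E] [FiniteDimensional ℝ E]

theorem Pt2.inj_tau {P : E →L[ℝ] E} {c : ℝ → ℂ} {C A B : ℝ × ℝ → ℂ} (hP : IsPr P)
    (hF : IsFam2 c C A B) {s : ℝ} {z z' : E × E} (hq : ‖z.1‖ = 1) (hq' : ‖z'.1‖ = 1)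
    (p : Pt2 P C A B s z) (p' : Pt2 P C A B s z') (ha : xr P A B (s, z) = xr P A B (s, z'))
    (hy : xi P A B (s, z) = xi P A B (s, z')) : z.1 = z'.1 := by
  have h1 : C (s, ta P z.1) = C (s, ta P z'.1) := by
    have r1 := p.rr
    have r2 := p'.rr
    have i1 := p.ri
    have i2 := p'.ri
    rw [ha, hy] at r1 i1
    apply Complex.ext
    · linarith
    · linarith
  have h2 := hF.inj s _ (hP.ta_mem hq) _ (hP.ta_mem hq') h1
  have hAn := hF.Ane s _ (hP.ta_mem hq)
  have hBn := hF.Bne s _ (hP.ta_mem hq)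
  have hPP : P z.1 = P z'.1 := by
    have e1 := p.Pr
    have e2 := p.Pi
    rw [ha, p'.Pr, ← h2] at e1
    rw [hy, p'.Pi, ← h2] at e2
    by_cases h4 : (A (s, ta P z.1)).re = 0
    · have h5 : (A (s, ta P z.1)).im ≠ 0 := fun h5 => hAn (Complex.ext h4 h5)
      exact (smul_right_injective E h5 e2).symm
    · exact (smul_right_injective E h4 e1).symm
  have hQQ : z.1 - P z.1 = z'.1 - P z'.1 := by
    have e1 : xr P A B (s, z) = (A (s, ta P z.1)).re • P z.1 +
      (B (s, ta P z.1)).re • (z.1 - P z.1) := rfl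
    have e2 : xr P A B (s, z') = (A (s, ta P z'.1)).re • P z'.1 +
      (B (s, ta P z'.1)).re • (z'.1 - P z'.1) := rfl
    have e3 : xi P A B (s, z) = (A (s, ta P z.1)).im • P z.1 +
      (B (s, ta P z.1)).im • (z.1 - P z.1) := rfl
    have e4 : xi P A B (s, z') = (A (s, ta P z'.1)).im • P z'.1 +
      (B (s, ta P z'.1)).im • (z'.1 - P z'.1) := rfl
    rw [e1, e2, ← h2, ← hPP] at ha
    rw [e3, e4, ← h2, ← hPP] at hy
    have ha2 := add_left_cancel ha
    have hy2 := add_left_cancel hy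
    by_cases h4 : (B (s, ta P z.1)).re = 0
    · have h5 : (B (s, ta P z.1)).im ≠ 0 := fun h5 => hBn (Complex.ext h4 h5)
      have := smul_right_injective E h5 hy2
      rwa [← hPP]
    · have := smul_right_injective E h4 ha2
      rwa [← hPP]
  rw [← hPP] at hQQ
  exact sub_left_injective hQQ

/-- the isotopy is an immersion on the zero section -/
theorem imm_aux {P : E →L[ℝ] E} {c : ℝ → ℂ} {C A B : ℝ × ℝ → ℂ} (hP : IsPr P)
    (hF : IsFam2 c C A B) {s : ℝ} {z v : E × E} (hq : ‖z.1‖ = 1)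
    (ha : fderiv ℝ (xr P A B) (s, z) (0, v) = 0) (hy : fderiv ℝ (xi P A B) (s, z) (0, v) = 0) :
    v.1 = 0 := by
  have hτ := hP.ta_mem hq
  rw [dxr hP hF.hA hF.hB] at ha
  rw [dxi hP hF.hA hF.hB] at hy
  have pp : (inner ℝ (P z.1) (P z.1) : ℝ) = ta P z.1 := by rw [hP.pp]; rfl
  have hdC := hF.dC_A s hτ
  have hCne : fderiv ℝ C (s, ta P z.1) (0, 1) ≠ 0 := by
    rw [← (slice_deriv hF.hC s (ta P z.1)).deriv]
    exact hF.imm s _ hτ
  have hAn := hF.Ane s _ hτ
  have hBn := hF.Bne s _ hτ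
  set τ := ta P z.1 with hτd
  set a := A (s, τ) with had
  set b := B (s, τ) with hbd
  set a' := fderiv ℝ A (s, τ) (0, 1) with ha'
  set b' := fderiv ℝ B (s, τ) (0, 1) with hb'
  set k : ℝ := inner ℝ (P z.1) v.1 with hk
  have h1 := congrArg (fun x => (inner ℝ (P z.1) x : ℝ)) ha
  have h2 := congrArg (fun x => (inner ℝ (P z.1) x : ℝ)) hy
  have pv : (inner ℝ (P z.1) (P v.1) : ℝ) = k := by rw [hP.pp]
  simp only [inner_add_right, inner_smul_right, inner_zero_right, hP.pq, mul_zero, add_zero, pp,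
    pv] at h1 h2
  have h3 : (k : ℂ) * fderiv ℝ C (s, τ) (0, 1) = 0 := by
    have h4 : (k : ℂ) * (a + 2 * τ * a') = 0 := by
      apply Complex.ext
      · simp only [Complex.mul_re, Complex.mul_im, Complex.add_re, Complex.add_im,
          Complex.ofReal_re, Complex.ofReal_im, Complex.re_ofNat, Complex.im_ofNat,
          Complex.zero_re]
        linear_combination h1
      · simp only [Complex.mul_re, Complex.mul_im, Complex.add_re, Complex.add_im,
          Complex.ofReal_re, Complex.ofReal_im, Complex.re_ofNat, Complex.im_ofNat,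
          Complex.zero_im]
        linear_combination h2
    rw [hdC]
    linear_combination (-2 * a) * h4
  have hk0 : k = 0 := by
    rcases mul_eq_zero.1 h3 with h4 | h4
    · exact_mod_cast h4
    · exact absurd h4 hCne
  rw [hk0] at ha hy
  simp only [mul_zero, zero_mul, zero_smul, add_zero] at ha hy
  have ha1 := congrArg P ha
  have hy1 := congrArg P hy
  simp only [map_add, map_smul, hP.idem, hP.Pq, smul_zero, add_zero, map_zero] at ha1 hy1
  have hPv : P v.1 = 0 := by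
    rcases smul_eq_zero.1 ha1 with h4 | h4
    · rcases smul_eq_zero.1 hy1 with h5 | h5
      · exact absurd (Complex.ext h4 h5) hAn
      · exact h5
    · exact h4
  rw [hPv, smul_zero, zero_add, sub_zero] at ha hy
  rcases smul_eq_zero.1 ha with h4 | h4
  · rcases smul_eq_zero.1 hy with h5 | h5
    · exact absurd (Complex.ext h4 h5) hBn
    · exact h5
  · exact h4

theorem scale_unit {x₀ : E} (S : Submodule ℝ E) (hx₀ : ‖x₀‖ = 1) (hm : x₀ ∈ S) {x : E}
    (hx : x ∈ S) : ∃ u : E, ‖u‖ = 1 ∧ u ∈ S ∧ ∃ k : ℝ, x = k • u := by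
  by_cases h2 : x = 0
  · exact ⟨x₀, hx₀, hm, 0, by rw [h2, zero_smul]⟩
  · refine ⟨‖x‖⁻¹ • x, ?_, S.smul_mem _ hx, ‖x‖, ?_⟩
    · rw [norm_smul, norm_inv, norm_norm]
      exact inv_mul_cancel₀ (norm_ne_zero_iff.2 h2)
    · rw [smul_smul, mul_inv_cancel₀ (norm_ne_zero_iff.2 h2), one_smul]

/-- **The zero section is Hamiltonian isotopic to the Lagrangian over an arc.** -/
theorem ham_of_arc2 {P : E →L[ℝ] E} (hP : IsPr P) {e₀ u₀ : E} (he₀ : ‖e₀‖ = 1) (hPe₀ : P e₀ = 0)
    (hu₀ : ‖u₀‖ = 1) (hPu₀ : P u₀ = u₀) {c : ℝ → ℂ} (hc : IsArc c) {L : Set (E × E)}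
    (hL : ∀ z, z ∈ L ↔ ‖z.1‖ = 1 ∧ inner ℝ z.1 z.2 = (0 : ℝ) ∧
      (∃ e u, ‖e‖ = 1 ∧ P e = 0 ∧ ‖u‖ = 1 ∧ P u = u ∧ InPl e u z.1 ∧ InPl e u z.2) ∧
      ∃ τ ∈ Icc (0 : ℝ) 1, c τ = wf P z) : HamIsotopicToZero (Sph E) L := by
  obtain ⟨C, A, B, hF⟩ := exists_fam2 hc
  obtain ⟨G, hG, hG1⟩ := exists_invsqrt
  obtain ⟨UQ, r, hr⟩ := exists_sph_ret (E := E)
  obtain ⟨UK, ρ, hρ, hTn⟩ := exists_Zs_ret (E := E)
  have hA := hF.hA
  have hB := hF.hB
  have cQ : IsCompact (Sph E) := isCompact_sphere _ _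
  have cK : IsCompact (Zs E) := by
    have : Zs E = Sph E ×ˢ {0} := rfl
    rw [this]
    exact cQ.prod isCompact_singleton
  have hpt : ∀ s, ∀ z ∈ Zs E, Pt2 P C A B s z := fun s z hz => hF.pt hP s (mem_Sph.1 hz.1)
  obtain ⟨H, φ, hH, hφ, hφι⟩ := H481.ham_ext hr cQ hρ cK (iso2_smooth (P := P) hG hA hB)
    (fun s z hz => cot_sph.2 ⟨(hpt s z hz).norm hG1, (hpt s z hz).orth⟩)
    (fun s z hz z' hz' h => by
      have p := hpt s z hz
      have p' := hpt s z' hz'
      have hy : xi P A B (s, z) = xi P A B (s, z') := congrArg Prod.snd h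
      have ha : xr P A B (s, z) = xr P A B (s, z') := by
        rw [p.inv hG1, p'.inv hG1, h]
      have h4 := Pt2.inj_tau hP hF (mem_Sph.1 hz.1) (mem_Sph.1 hz'.1) p p' ha hy
      exact Prod.ext h4 (by rw [hz.2, hz'.2]))
    (fun s z hz v hv h => by
      obtain ⟨hv2, hv1⟩ := hTn z hz v hv
      have hy : fderiv ℝ (xi P A B) (s, z) (0, v) = 0 := by
        rw [← diso2_snd hG hA hB, h]
        rfl
      obtain ⟨k, hk, hk2⟩ := diso2_fst (P := P) hG hA hB s z v
      have hGne : G (1 + ‖xi P A B (s, z)‖ ^ 2) ≠ 0 := by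
        rw [(hpt s z hz).Gval hG1]
        exact inv_ne_zero (Real.sqrt_pos.2 (by positivity)).ne'
      have ha : fderiv ℝ (xr P A B) (s, z) (0, v) = 0 := by
        rw [h, hk hy, zero_smul, zero_add] at hk2
        exact (smul_eq_zero.1 hk2.symm).resolve_left hGne
      exact Prod.ext (imm_aux hP hF (mem_Sph.1 hz.1) ha hy) hv2)
    (prim2_smooth (P := P) hG hA hB)
    (fun s z hz v hv => by
      obtain ⟨hv2, hv1⟩ := hTn z hz v hv
      have hq := mem_Sph.1 hz.1
      have p := hpt s z hz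
      obtain ⟨k, -, hk2⟩ := diso2_fst (P := P) hG hA hB s z v
      have hay := p.ay
      rw [real_inner_comm] at hay
      rw [dprim2 hP hG hA hB, hk2, inner_add_right, inner_smul_right, inner_smul_right]
      have h0 : (iso2 P G A B (s, z)).2 = xi P A B (s, z) := rfl
      rw [h0, hay, mul_zero, zero_add, dxr hP hA hB]
      have hy : xi P A B (s, z) = (A (s, ta P z.1)).im • P z.1 +
        (B (s, ta P z.1)).im • (z.1 - P z.1) := rfl
      have pp : (inner ℝ (P z.1) (P z.1) : ℝ) = ta P z.1 := by rw [hP.pp]; rfl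
      have pv : (inner ℝ (P z.1) (P v.1) : ℝ) = inner ℝ (P z.1) v.1 := hP.pp _ _
      have qq : (inner ℝ (z.1 - P z.1) (z.1 - P z.1) : ℝ) = 1 - ta P z.1 := by
        rw [hP.qq, real_inner_self_eq_norm_sq, hq]
        unfold ta
        ring
      have qv : (inner ℝ (z.1 - P z.1) (v.1 - P v.1) : ℝ) = -inner ℝ (P z.1) v.1 := by
        rw [hP.qq, hv1]
        ring
      have hG3 : G (1 + ‖xi P A B (s, z)‖ ^ 2) = G (1 + ta P z.1 * (A (s, ta P z.1)).im ^ 2 +
          (1 - ta P z.1) * (B (s, ta P z.1)).im ^ 2) := by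
        rw [p.y2, add_assoc]
      rw [hG3, hy]
      simp only [inner_add_left, inner_add_right, inner_smul_left, inner_smul_right, hP.pq, hP.qp,
        pp, pv, qq, qv, dens2]
      simp
      ring)
  refine ⟨H, φ, hH, hφ, ?_⟩
  -- the end points
  have h0 : ∀ z ∈ Zs E, iso2 P G A B (0, z) = z := by
    intro z hz
    have hq := mem_Sph.1 hz.1
    have hτ := hP.ta_mem hq
    have hA0 := hF.A0 _ hτ
    have hB0 := hF.B0 _ hτ
    have hy : xi P A B (0, z) = 0 := by
      have : xi P A B (0, z) = (A (0, ta P z.1)).im • P z.1 +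
        (B (0, ta P z.1)).im • (z.1 - P z.1) := rfl
      rw [this, hA0, hB0]
      simp
    have ha : xr P A B (0, z) = z.1 := by
      have : xr P A B (0, z) = (A (0, ta P z.1)).re • P z.1 +
        (B (0, ta P z.1)).re • (z.1 - P z.1) := rfl
      rw [this, hA0, hB0]
      simp
    have : iso2 P G A B (0, z) =
      (G (1 + ‖xi P A B (0, z)‖ ^ 2) • xr P A B (0, z), xi P A B (0, z)) := rfl
    rw [this, hy, ha, hG1 _ (by simp; norm_num)]
    simp only [norm_zero]
    refine Prod.ext ?_ hz.2.symm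
    simp
  have h1 : ∀ z, z ∈ L ↔ ∃ q, ‖q‖ = 1 ∧ iso2 P G A B (1, (q, 0)) = z := by
    intro z
    rw [hL]
    constructor
    · rintro ⟨hz1, hz2, ⟨e, u, he, hPe, hu, hPu, hu1, hu2⟩, τ, hτ, hcτ⟩
      have heu : inner ℝ e u = (0 : ℝ) := by
        rw [← hPu, ← hP.symm, hPe, inner_zero_left]
      set a₀ : ℝ := √(1 + ‖z.2‖ ^ 2) * inner ℝ e z.1 with ha₀
      set a₁ : ℝ := √(1 + ‖z.2‖ ^ 2) * inner ℝ u z.1 with ha₁
      set y₀ : ℝ := inner ℝ e z.2 with hy₀
      set y₁ : ℝ := inner ℝ u z.2 with hy₁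
      have ee : inner ℝ e e = (1 : ℝ) := e_e he
      have uu : inner ℝ u u = (1 : ℝ) := e_e hu
      have ue : inner ℝ u e = (0 : ℝ) := by rw [real_inner_comm]; exact heu
      have hsq : 0 < 1 + ‖z.2‖ ^ 2 := by positivity
      have hs2 : √(1 + ‖z.2‖ ^ 2) ^ 2 = 1 + ‖z.2‖ ^ 2 := Real.sq_sqrt hsq.le
      have n1 : (inner ℝ e z.1 : ℝ) ^ 2 + (inner ℝ u z.1 : ℝ) ^ 2 = 1 := by
        have h2 : ‖z.1‖ ^ 2 = 1 := by rw [hz1]; norm_num
        rw [← real_inner_self_eq_norm_sq] at h2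
        have h3 : (inner ℝ z.1 z.1 : ℝ) = inner ℝ ((inner ℝ e z.1 : ℝ) • e + (inner ℝ u z.1 : ℝ) • u)
          ((inner ℝ e z.1 : ℝ) • e + (inner ℝ u z.1 : ℝ) • u) := by rw [← hu1]
        rw [h3] at h2
        simp only [inner_add_left, inner_add_right, inner_smul_left, inner_smul_right, ee, uu, ue,
          heu] at h2
        simp at h2
        linarith
      have n2 : y₀ ^ 2 + y₁ ^ 2 = ‖z.2‖ ^ 2 := by
        rw [← real_inner_self_eq_norm_sq]
        have h3 : (inner ℝ z.2 z.2 : ℝ) = inner ℝ (y₀ • e + y₁ • u) (y₀ • e + y₁ • u) := by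
          rw [← hu2]
        rw [h3]
        simp only [inner_add_left, inner_add_right, inner_smul_left, inner_smul_right, ee, uu, ue,
          heu]
        simp
        ring
      have n3 : (inner ℝ e z.1 : ℝ) * y₀ + (inner ℝ u z.1 : ℝ) * y₁ = 0 := by
        have h3 : (inner ℝ z.1 z.2 : ℝ) = inner ℝ ((inner ℝ e z.1 : ℝ) • e + (inner ℝ u z.1 : ℝ) • u)
          (y₀ • e + y₁ • u) := by rw [← hu1, ← hu2]
        rw [h3] at hz2
        simp only [inner_add_left, inner_add_right, inner_smul_left, inner_smul_right, ee, uu, ue,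
          heu] at hz2
        simp at hz2
        linarith
      have hPz1 : P z.1 = (inner ℝ u z.1 : ℝ) • u := by
        conv_lhs => rw [hu1]
        rw [map_add, map_smul, map_smul, hPe, hPu, smul_zero, zero_add]
      have hPz2 : P z.2 = y₁ • u := by
        conv_lhs => rw [hu2]
        rw [map_add, map_smul, map_smul, hPe, hPu, smul_zero, zero_add]
      have r1 : a₀ ^ 2 + a₁ ^ 2 = 1 + (y₀ ^ 2 + y₁ ^ 2) := by
        rw [ha₀, ha₁, mul_pow, mul_pow, ← mul_add, n1, mul_one, hs2, n2]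
      have r2 : a₀ * y₀ + a₁ * y₁ = 0 := by
        rw [ha₀, ha₁]
        linear_combination √(1 + ‖z.2‖ ^ 2) * n3
      have r1' : (a₀ : ℂ) ^ 2 + (a₁ : ℂ) ^ 2 = 1 + ((y₀ : ℂ) ^ 2 + (y₁ : ℂ) ^ 2) := by
        exact_mod_cast r1
      have r2' : (a₀ : ℂ) * y₀ + (a₁ : ℂ) * y₁ = 0 := by exact_mod_cast r2
      have hw : c τ = 1 - 2 * ((a₁ : ℂ) + (y₁ : ℂ) * Complex.I) ^ 2 := by
        rw [hcτ]
        unfold wf
        rw [hPz1, hPz2, norm_smul, norm_smul, hu, inner_smul_left, inner_smul_right, uu, mul_one,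
          mul_one, Real.norm_eq_abs, Real.norm_eq_abs, sq_abs, sq_abs]
        have e1 : (1 + ‖z.2‖ ^ 2) * (inner ℝ u z.1 : ℝ) ^ 2 = a₁ ^ 2 := by
          rw [ha₁, mul_pow, hs2]
        have e2 : 2 * (√(1 + ‖z.2‖ ^ 2) * ((starRingEnd ℝ) (inner ℝ u z.1 : ℝ) * (y₁ * 1))) =
            2 * (a₁ * y₁) := by
          rw [ha₁]
          simp only [conj_trivial]
          ring
        rw [e1, e2]
        push_cast
        linear_combination (2 * (y₁ : ℂ) ^ 2) * Complex.I_sq
      have hsum1 : ((a₀ : ℂ) + (y₀ : ℂ) * Complex.I) ^ 2 +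
          ((a₁ : ℂ) + (y₁ : ℂ) * Complex.I) ^ 2 = 1 := by
        linear_combination r1' + 2 * Complex.I * r2' +
          ((y₁ : ℂ) ^ 2 + (y₀ : ℂ) ^ 2) * Complex.I_sq
      have hA2 : ((a₁ : ℂ) + (y₁ : ℂ) * Complex.I) ^ 2 = τ * A (1, τ) ^ 2 := by
        have h2 := hF.relA 1 τ hτ
        rw [hF.C1, hw] at h2
        linear_combination h2 / 2
      have hB2 : ((a₀ : ℂ) + (y₀ : ℂ) * Complex.I) ^ 2 = (1 - τ) * B (1, τ) ^ 2 := by
        have h2 := hF.relB 1 τ hτ
        rw [hF.C1, hw] at h2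
        linear_combination h2 / 2 + hsum1
      have hroot : ∀ (m x y : ℝ) (b : ℂ), 0 ≤ m →
          ((x : ℂ) + (y : ℂ) * Complex.I) ^ 2 = m * b ^ 2 →
          ∃ m' : ℝ, m' ^ 2 = m ∧ x = m' * b.re ∧ y = m' * b.im := by
        intro m x y b hm hxy
        have hm2 : √m ^ 2 = m := Real.sq_sqrt hm
        have hm2' : ((√m : ℝ) : ℂ) ^ 2 = (m : ℂ) := by exact_mod_cast hm2
        have h2 : ((x : ℂ) + (y : ℂ) * Complex.I) ^ 2 = (((√m : ℝ) : ℂ) * b) ^ 2 := by
          rw [hxy, mul_pow, hm2']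
        rcases sq_eq_sq_iff_eq_or_eq_neg.1 h2 with h3 | h3
        · refine ⟨√m, hm2, ?_, ?_⟩
          · have := congrArg Complex.re h3
            simpa using this
          · have := congrArg Complex.im h3
            simpa using this
        · refine ⟨-√m, by rw [neg_sq, hm2], ?_, ?_⟩
          · have := congrArg Complex.re h3
            simpa using this
          · have := congrArg Complex.im h3
            simpa using this
      obtain ⟨m₁, hm₁, hr₁, hi₁⟩ := hroot τ a₁ y₁ _ hτ.1 hA2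
      obtain ⟨m₀, hm₀, hr₀, hi₀⟩ := hroot (1 - τ) a₀ y₀ (B (1, τ)) (by linarith [hτ.2]) (by
        rw [hB2]; push_cast; ring)
      set q : E := m₀ • e + m₁ • u with hq
      have hPq : P q = m₁ • u := by
        rw [hq, map_add, map_smul, map_smul, hPe, hPu, smul_zero, zero_add]
      have hQq : q - P q = m₀ • e := by rw [hPq, hq]; abel
      have hqn : ‖q‖ = 1 := by
        rw [← sq_eq_sq₀ (norm_nonneg _) zero_le_one, ← real_inner_self_eq_norm_sq, hq]
        simp only [inner_add_left, inner_add_right, inner_smul_left, inner_smul_right, ee, uu, ue,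
          heu]
        simp
        linear_combination hm₁ + hm₀
      have htq : ta P q = τ := by
        unfold ta
        rw [hPq, hq]
        simp only [inner_add_right, inner_smul_left, inner_smul_right, uu, ue]
        simp
        linear_combination hm₁
      refine ⟨q, hqn, ?_⟩
      have p := hF.pt hP 1 (z := (q, (0 : E))) hqn
      have hy : xi P A B (1, (q, (0 : E))) = z.2 := by
        have : xi P A B (1, (q, (0 : E))) = (A (1, ta P q)).im • P q +
          (B (1, ta P q)).im • (q - P q) := rfl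
        rw [this, htq, hQq, hPq, smul_smul, smul_smul, mul_comm _ m₁, mul_comm _ m₀, ← hi₁, ← hi₀,
          add_comm]
        exact hu2.symm
      have ha : xr P A B (1, (q, (0 : E))) = √(1 + ‖z.2‖ ^ 2) • z.1 := by
        have : xr P A B (1, (q, (0 : E))) = (A (1, ta P q)).re • P q +
          (B (1, ta P q)).re • (q - P q) := rfl
        rw [this, htq, hQq, hPq, smul_smul, smul_smul, mul_comm _ m₁, mul_comm _ m₀, ← hr₁, ← hr₀,
          add_comm, ha₀, ha₁]
        conv_rhs => rw [hu1]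
        rw [smul_add, smul_smul, smul_smul]
      have : iso2 P G A B (1, (q, (0 : E))) = (G (1 + ‖xi P A B (1, (q, (0 : E)))‖ ^ 2) •
        xr P A B (1, (q, (0 : E))), xi P A B (1, (q, (0 : E)))) := rfl
      rw [this, p.Gval hG1, hy, ha, smul_smul, inv_mul_cancel₀ (Real.sqrt_pos.2 hsq).ne', one_smul]
    · rintro ⟨q, hq, rfl⟩
      have p := hF.pt hP 1 (z := (q, (0 : E))) hq
      have hτ := hP.ta_mem hq
      refine ⟨p.norm hG1, p.orth, ?_, ta P q, hτ, ?_⟩
      · obtain ⟨u, hu, hPu, k, hk⟩ := scale_unit (LinearMap.ker ((P : E →ₗ[ℝ] E) - LinearMap.id))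
          hu₀ (by simp [hPu₀]) (x := P q) (by simp [hP.idem])
        obtain ⟨e, he, hPe, k', hk'⟩ := scale_unit (LinearMap.ker (P : E →ₗ[ℝ] E))
          he₀ (by simp [hPe₀]) (x := q - P q) (by simp [hP.idem])
        have hPu : P u = u := by
          rw [LinearMap.mem_ker] at hPu
          exact sub_eq_zero.1 hPu
        have hPe : P e = 0 := by
          rw [LinearMap.mem_ker] at hPe
          exact hPe
        have heu : inner ℝ e u = (0 : ℝ) := by
          rw [← hPu, ← hP.symm, hPe, inner_zero_left]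
        refine ⟨e, u, he, hPe, hu, hPu, ?_, ?_⟩
        · have : (iso2 P G A B (1, (q, (0 : E)))).1 = G (1 + ‖xi P A B (1, (q, (0 : E)))‖ ^ 2) •
            ((A (1, ta P q)).re • P q + (B (1, ta P q)).re • (q - P q)) := rfl
          rw [this, hk', hk, smul_add, smul_smul, smul_smul, smul_smul, smul_smul, add_comm]
          exact InPl.smul he hu heu _ _ rfl
        · have : (iso2 P G A B (1, (q, (0 : E)))).2 = (A (1, ta P q)).im • P q +
            (B (1, ta P q)).im • (q - P q) := rfl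
          rw [this, hk', hk, smul_smul, smul_smul, add_comm]
          exact InPl.smul he hu heu _ _ rfl
      · rw [p.wf hG1, hF.C1]
  ext w
  rw [h1]
  constructor
  · rintro ⟨y, hy, rfl⟩
    have hyZ : y ∈ Zs E := hy
    refine ⟨y.1, mem_Sph.1 hyZ.1, ?_⟩
    have h2 := hφι 1 ⟨zero_le_one, le_refl 1⟩ y hyZ
    rw [h0 y hyZ] at h2
    rw [h2]
    congr 2
    exact Prod.ext rfl hyZ.2.symm
  · rintro ⟨q, hq, rfl⟩
    have hyZ : ((q, 0) : E × E) ∈ Zs E := ⟨mem_Sph.2 hq, rfl⟩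
    refine ⟨(q, 0), hyZ, ?_⟩
    have h2 := hφι 1 ⟨zero_le_one, le_refl 1⟩ (q, 0) hyZ
    rw [h0 _ hyZ] at h2
    exact h2

end Vale.Agent.P220.R2.H562
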