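import Vale.Agent.P220.R2.H562.Arc
import Vale.Agent.P220.R2.H562.Ham
import Vale.Agent.P220.R2.H180.Main

/-!
# Lagrangians invariant under two groups of rotations
-/

open Set Filter Topology
open scoped ContDiff

set_option linter.unusedSectionVars false

namespace Vale.Agent.P220.R2.H562

open H57 H180

variable {E : Type} [NormedAddCommGroup E] [InnerProductSpace ℝ E] [FiniteDimensional ℝ E]

/-- `L` is invariant under the rotations that fix the subspace `K` pointwise -/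
def RotFix (K : Submodule ℝ E) (L : Set (E × E)) : Prop :=
  ∀ g : E ≃ₗᵢ[ℝ] E, (∀ x ∈ K, g x = x) → LinearMap.det (g.toLinearEquiv : E →ₗ[ℝ] E) = 1 →
    ∀ z ∈ L, (g z.1, g z.2) ∈ L

/-- the moment map vanishes -/
theorem moment2 {v w : E} (h : Orth v w) {n : ℕ}
    {Q : Set E} {L : Set (E × E)} (hL : IsClosedExactLagrangian n Q L)
    (hr : ∀ t, ∀ z ∈ L, (rt v w t z.1, rt v w t z.2) ∈ L)
    {z : E × E} (hz : z ∈ L) : (inner ℝ v z.1 * inner ℝ w z.2 : ℝ) = inner ℝ w z.1 * inner ℝ v z.2 := by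
  obtain ⟨f, hf, hex⟩ := hL.exact
  set γ : ℝ → E × E := fun t => (rt v w t z.1, rt v w t z.2) with hγ
  have hγs : ContDiff ℝ ∞ γ := (h.rt_smooth z.1).prodMk (h.rt_smooth z.2)
  have hγL : ∀ t, γ t ∈ L := fun t => hr t z hz
  have hγd : ∀ t, HasDerivAt γ (((-Real.sin t * inner ℝ v z.1 - Real.cos t * inner ℝ w z.1) • v +
      (-Real.sin t * inner ℝ w z.1 + Real.cos t * inner ℝ v z.1) • w),
      ((-Real.sin t * inner ℝ v z.2 - Real.cos t * inner ℝ w z.2) • v +
      (-Real.sin t * inner ℝ w z.2 + Real.cos t * inner ℝ v z.2) • w)) t := fun t =>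
    (h.rt_deriv z.1 t).prodMk (h.rt_deriv z.2 t)
  set k : ℝ := inner ℝ v z.1 * inner ℝ w z.2 - inner ℝ w z.1 * inner ℝ v z.2 with hk
  have hfd : ∀ t, HasDerivAt (fun t => f (γ t) - t * k) 0 t := by
    intro t
    have h1 : HasDerivAt (fun t => f (γ t)) _ t :=
      (hf.differentiable (by simp) (γ t)).hasFDerivAt.comp_hasDerivAt t (hγd t)
    have h2 : (((-Real.sin t * inner ℝ v z.1 - Real.cos t * inner ℝ w z.1) • v +
      (-Real.sin t * inner ℝ w z.1 + Real.cos t * inner ℝ v z.1) • w),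
      ((-Real.sin t * inner ℝ v z.2 - Real.cos t * inner ℝ w z.2) • v +
      (-Real.sin t * inner ℝ w z.2 + Real.cos t * inner ℝ v z.2) • w)) ∈ Tan L (γ t) := by
      refine ⟨fun s => γ (t + s), hγs.comp (contDiff_const.add contDiff_id), fun s => hγL _,
        by simp, ?_⟩
      have h3 := (hγd (t + 0)).scomp (0 : ℝ) ((hasDerivAt_id (0 : ℝ)).const_add t)
      simp only [one_smul, add_zero] at h3
      exact h3.deriv
    rw [hex _ (hγL t) _ h2] at h1
    have h4 := h1.sub ((hasDerivAt_id t).mul_const k)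
    refine h4.congr_deriv ?_
    simp only [lam, hγ, rt, inner_add_left, inner_add_right, inner_smul_left, inner_smul_right,
      h.vv, h.ww, h.vw, h.wv, hk, conj_trivial]
    have h5 := Real.sin_sq_add_cos_sq t
    rw [real_inner_comm v z.2, real_inner_comm w z.2]
    linear_combination (inner ℝ v z.1 * inner ℝ w z.2 - inner ℝ w z.1 * inner ℝ v z.2) * h5
  have hc := is_const_of_deriv_eq_zero (fun t => (hfd t).differentiableAt)
    (fun t => (hfd t).deriv) (2 * Real.pi) 0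
  have h0 : γ (2 * Real.pi) = γ 0 := by simp [hγ, rt]
  simp only [h0, zero_mul, sub_zero] at hc
  have h6 : 2 * Real.pi * k = 0 := by linarith
  have h7 : k = 0 := by
    rcases mul_eq_zero.1 h6 with h8 | h8
    · exact absurd h8 (by positivity)
    · exact h8
  rw [hk] at h7
  linarith

theorem rot_inv {K : Submodule ℝ E} {L : Set (E × E)} (hr : RotFix K L) {v w : E} (h : Orth v w)
    (hv : ∀ x ∈ K, inner ℝ v x = (0 : ℝ)) (hw : ∀ x ∈ K, inner ℝ w x = (0 : ℝ)) :
    ∀ t, ∀ z ∈ L, (rt v w t z.1, rt v w t z.2) ∈ L := by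
  intro t z hz
  have h1 := hr (rtE v w t) (fun x hx => by rw [h.rtE_apply, h.rt_fix (hv x hx) (hw x hx)])
    (h.rtE_det t) z hz
  rwa [h.rtE_apply, h.rtE_apply] at h1

theorem unit_inv {x : E} (hx : x ≠ 0) : ‖‖x‖⁻¹ • x‖ = 1 := by
  rw [norm_smul, norm_inv, norm_norm]
  exact inv_mul_cancel₀ (norm_ne_zero_iff.2 hx)

/-- vectors with vanishing moments are collinear -/
theorem exists_dir {K : Submodule ℝ E} {x y u₀ : E} (hx : x ∈ K) (hy : y ∈ K) (hu₀ : ‖u₀‖ = 1)
    (hK₀ : u₀ ∈ K) (hm : ∀ v ∈ K, ∀ w ∈ K, Orth v w →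
      (inner ℝ v x * inner ℝ w y : ℝ) = inner ℝ w x * inner ℝ v y) :
    ∃ u ∈ K, ‖u‖ = 1 ∧ ∃ a b : ℝ, x = a • u ∧ y = b • u := by
  by_cases h1 : x = 0
  · by_cases h2 : y = 0
    · exact ⟨u₀, hK₀, hu₀, 0, 0, by rw [h1, zero_smul], by rw [h2, zero_smul]⟩
    · refine ⟨_, K.smul_mem _ hy, unit_inv h2, 0, ‖y‖, by rw [h1, zero_smul], ?_⟩
      rw [smul_smul, mul_inv_cancel₀ (norm_ne_zero_iff.2 h2), one_smul]
  · have hu := unit_inv h1
    have hK := K.smul_mem ‖x‖⁻¹ hx
    have hxu : x = ‖x‖ • (‖x‖⁻¹ • x) := by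
      rw [smul_smul, mul_inv_cancel₀ (norm_ne_zero_iff.2 h1), one_smul]
    set u : E := ‖x‖⁻¹ • x with hudef
    set d : E := y - (inner ℝ u y : ℝ) • u with hd
    by_cases h2 : d = 0
    · exact ⟨u, hK, hu, ‖x‖, inner ℝ u y, hxu, sub_eq_zero.1 h2⟩
    · exfalso
      have hw := unit_inv h2
      have hdK : d ∈ K := K.sub_mem hy (K.smul_mem _ hK)
      have hud : inner ℝ u d = (0 : ℝ) := by
        rw [hd, inner_sub_right, inner_smul_right, e_e hu]
        ring
      have hdu : inner ℝ d u = (0 : ℝ) := by rw [real_inner_comm]; exact hud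
      have hdy : inner ℝ d y = (‖d‖ ^ 2 : ℝ) := by
        rw [← real_inner_self_eq_norm_sq]
        have h4 : y = (inner ℝ u y : ℝ) • u + d := by
          rw [hd]; abel
        conv_lhs => rw [h4]
        rw [inner_add_right, inner_smul_right, hdu]
        ring
      set w : E := ‖d‖⁻¹ • d with hwdef
      have ho : Orth u w := ⟨hu, hw, by rw [hwdef, inner_smul_right, hud, mul_zero]⟩
      have h5 := hm u hK w (K.smul_mem _ hdK) ho
      have h6 : inner ℝ w x = (0 : ℝ) := by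
        rw [hxu, inner_smul_right, ho.wv, mul_zero]
      have h7 : inner ℝ u x = (‖x‖ : ℝ) := by
        conv_lhs => rw [hxu]
        rw [inner_smul_right, e_e hu, mul_one]
      have h8 : inner ℝ w y = (‖d‖ : ℝ) := by
        rw [hwdef, inner_smul_left, hdy]
        have : ‖d‖ ≠ 0 := norm_ne_zero_iff.2 h2
        simp
        field_simp
      rw [h6, h7, h8, zero_mul] at h5
      rcases mul_eq_zero.1 h5 with h9 | h9
      · exact h1 (norm_eq_zero.1 h9)
      · exact h2 (norm_eq_zero.1 h9)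

theorem isPr_star (F : Submodule ℝ E) : IsPr F.starProjection :=
  ⟨fun x => Submodule.starProjection_eq_self_iff.2 (F.starProjection_apply_mem x),
    fun x y => F.inner_starProjection_left_eq_right x y⟩

theorem star_orth (F : Submodule ℝ E) {x : E} (hx : x ∈ Fᗮ) : F.starProjection x = 0 :=
  (F.starProjection_apply_eq_zero_iff).2 hx

/-- every point of `L` lies in the plane of two vectors of `F` and of its complement -/
theorem exists_plane2 {F : Submodule ℝ E} {e₀ u₀ : E} (he₀ : ‖e₀‖ = 1) (he₀F : e₀ ∈ Fᗮ)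
    (hu₀ : ‖u₀‖ = 1) (hu₀F : u₀ ∈ F) {n : ℕ} {Q : Set E} {L : Set (E × E)}
    (hL : IsClosedExactLagrangian n Q L) (h1 : RotFix Fᗮ L) (h2 : RotFix F L)
    {z : E × E} (hz : z ∈ L) :
    ∃ e u, e ∈ Fᗮ ∧ u ∈ F ∧ Orth e u ∧ InPl e u z.1 ∧ InPl e u z.2 := by
  have hP := isPr_star F
  set P := F.starProjection with hPd
  have hPu : ∀ u ∈ F, ∀ x, (inner ℝ u (P x) : ℝ) = inner ℝ u x := by
    intro u hu x
    rw [← hP.symm, Submodule.starProjection_eq_self_iff.2 hu]
  have hPe : ∀ e ∈ Fᗮ, ∀ x, (inner ℝ e (x - P x) : ℝ) = inner ℝ e x := by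
    intro e he x
    rw [inner_sub_right, Submodule.inner_left_of_mem_orthogonal (F.starProjection_apply_mem x) he,
      sub_zero]
  obtain ⟨u, huF, hu, a, b, ha, hb⟩ := exists_dir (K := F) (x := P z.1) (y := P z.2)
    (F.starProjection_apply_mem _) (F.starProjection_apply_mem _) hu₀ hu₀F (by
      intro v hv w hw hvw
      rw [hPu v hv, hPu w hw, hPu v hv, hPu w hw]
      exact moment2 hvw hL (rot_inv h1 hvw
        (fun x hx => Submodule.inner_right_of_mem_orthogonal hv hx)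
        (fun x hx => Submodule.inner_right_of_mem_orthogonal hw hx)) hz)
  obtain ⟨e, heF, he, a', b', ha', hb'⟩ := exists_dir (K := Fᗮ) (x := z.1 - P z.1)
    (y := z.2 - P z.2)
    (F.sub_starProjection_mem_orthogonal _) (F.sub_starProjection_mem_orthogonal _) he₀ he₀F (by
      intro v hv w hw hvw
      rw [hPe v hv, hPe w hw, hPe v hv, hPe w hw]
      exact moment2 hvw hL (rot_inv h2 hvw
        (fun x hx => Submodule.inner_left_of_mem_orthogonal hx hv)
        (fun x hx => Submodule.inner_left_of_mem_orthogonal hx hw)) hz)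
  have heu : inner ℝ e u = (0 : ℝ) := Submodule.inner_left_of_mem_orthogonal huF heF
  refine ⟨e, u, heF, huF, ⟨he, hu, heu⟩, InPl.smul he hu heu a' a ?_, InPl.smul he hu heu b' b ?_⟩
  · rw [← ha, ← ha']
    abel
  · rw [← hb, ← hb']
    abel

theorem Refl_fix {w x : E} (hw : ‖w‖ = 1) (hx : inner ℝ w x = (0 : ℝ)) : Refl w x = x := by
  rw [Refl_apply hw, hx]
  simp

/-- invariance under isometries of determinant minus one -/
theorem ext_inv {K : Submodule ℝ E} {L : Set (E × E)} (hr : RotFix K L)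
    (third : ∀ z ∈ L, ∃ w, ‖w‖ = 1 ∧ (∀ x ∈ K, inner ℝ w x = (0 : ℝ)) ∧
      inner ℝ w z.1 = (0 : ℝ) ∧ inner ℝ w z.2 = (0 : ℝ))
    {g : E ≃ₗᵢ[ℝ] E} (hg : ∀ x ∈ K, g x = x)
    (hdet : LinearMap.det (g.toLinearEquiv : E →ₗ[ℝ] E) = 1 ∨
      LinearMap.det (g.toLinearEquiv : E →ₗ[ℝ] E) = -1) {z : E × E} (hz : z ∈ L) :
    (g z.1, g z.2) ∈ L := by
  rcases hdet with h | h
  · exact hr g hg h z hz
  · obtain ⟨w, hw, hwK, hw1, hw2⟩ := third z hz
    have h4 := hr ((Refl w).trans g) (fun x hx => by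
      show g (Refl w x) = x
      rw [Refl_fix hw (hwK x hx), hg x hx]) (by
      have : (((Refl w).trans g).toLinearEquiv : E →ₗ[ℝ] E) =
        (g.toLinearEquiv : E →ₗ[ℝ] E) ∘ₗ ((Refl w).toLinearEquiv : E →ₗ[ℝ] E) := rfl
      rw [this, LinearMap.det_comp, h, Refl_det hw]
      norm_num) z hz
    have h5 : ((Refl w).trans g) z.1 = g z.1 := by
      show g (Refl w z.1) = g z.1
      rw [Refl_fix hw hw1]
    have h6 : ((Refl w).trans g) z.2 = g z.2 := by
      show g (Refl w z.2) = g z.2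
      rw [Refl_fix hw hw2]
    rwa [h5, h6] at h4

/-- a unit vector of `K` orthogonal to `u` -/
theorem exists_third2 {K : Submodule ℝ E} (hK : 2 ≤ Module.finrank ℝ K) (u : E) :
    ∃ w ∈ K, ‖w‖ = 1 ∧ inner ℝ w u = (0 : ℝ) := by
  set φ : K →ₗ[ℝ] ℝ := ((innerSL ℝ u : E →L[ℝ] ℝ) : E →ₗ[ℝ] ℝ) ∘ₗ K.subtype with hφ
  have h1 : ¬ Function.Injective φ := by
    intro h
    have h2 := LinearMap.finrank_le_finrank_of_injective h
    rw [Module.finrank_self] at h2
    omega
  rw [← LinearMap.ker_eq_bot] at h1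
  obtain ⟨x, hx, hx0⟩ := Submodule.exists_mem_ne_zero_of_ne_bot h1
  have hx1 : (x : E) ≠ 0 := fun h => hx0 (Subtype.ext h)
  refine ⟨‖(x : E)‖⁻¹ • (x : E), K.smul_mem _ x.2, unit_inv hx1, ?_⟩
  have h2 : inner ℝ u (x : E) = (0 : ℝ) := hx
  rw [inner_smul_left, real_inner_comm, h2, mul_zero]

/-- a reflection that exchanges two unit vectors orthogonal to `K` -/
theorem exists_swap2 {K : Submodule ℝ E} {u v : E} (hu : ‖u‖ = 1) (hv : ‖v‖ = 1)
    (hu1 : ∀ x ∈ K, inner ℝ u x = (0 : ℝ)) (hv1 : ∀ x ∈ K, inner ℝ v x = (0 : ℝ)) :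
    ∃ g : E ≃ₗᵢ[ℝ] E, (∀ x ∈ K, g x = x) ∧ g v = u ∧ (∀ x, g (g x) = x) ∧
      (LinearMap.det (g.toLinearEquiv : E →ₗ[ℝ] E) = 1 ∨
        LinearMap.det (g.toLinearEquiv : E →ₗ[ℝ] E) = -1) := by
  by_cases huv : v = u
  · refine ⟨LinearIsometryEquiv.refl ℝ E, fun x _ => rfl, huv, fun x => rfl, Or.inl ?_⟩
    exact LinearMap.det_id
  · have hd : v - u ≠ 0 := sub_ne_zero.2 huv
    have hn : ‖v - u‖ ≠ 0 := norm_ne_zero_iff.2 hd
    have ha : ‖‖v - u‖⁻¹ • (v - u)‖ = 1 := unit_inv hd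
    refine ⟨Refl (‖v - u‖⁻¹ • (v - u)), fun x hx => ?_, ?_, ?_, Or.inr (Refl_det ha)⟩
    · refine Refl_fix ha ?_
      rw [inner_smul_left, inner_sub_left, hu1 x hx, hv1 x hx]
      simp
    · rw [Refl_apply ha, inner_smul_left, smul_smul]
      have h1 : (inner ℝ (v - u) v : ℝ) = ‖v - u‖ ^ 2 / 2 := by
        rw [← real_inner_self_eq_norm_sq, inner_sub_left, inner_sub_left, inner_sub_right,
          inner_sub_right, e_e hv, e_e hu, real_inner_comm u v]
        ring
      have h2 : 2 * ((starRingEnd ℝ) ‖v - u‖⁻¹ * inner ℝ (v - u) v) * ‖v - u‖⁻¹ = 1 := by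
        rw [h1]
        simp only [conj_trivial]
        field_simp
      rw [h2, one_smul]
      abel
    · intro x
      unfold Refl
      exact Submodule.reflection_reflection _ x

/-- the reflection in the plane of `e` and `u` -/
theorem refl_Pl {e u : E} (h : Orth e u) (x : E) :
    (Pl e u).reflection x = -Refl e (Refl u x) := by
  have h1 : (Pl e u).starProjection x = (inner ℝ e x : ℝ) • e + (inner ℝ u x : ℝ) • u := by
    refine Submodule.eq_starProjection_of_mem_of_inner_eq_zero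
      (h.mem_Pl.2 (InPl.smul h.v1 h.w1 h.vw _ _ rfl)) ?_
    intro w hw
    rw [h.mem_Pl.1 hw]
    simp only [inner_sub_left, inner_add_left, inner_add_right, inner_smul_left, inner_smul_right,
      h.vv, h.ww, h.vw, h.wv, conj_trivial, real_inner_comm e x, real_inner_comm u x]
    ring
  rw [Submodule.reflection_apply, h1, Refl_apply h.v1, Refl_apply h.w1, inner_sub_right,
    inner_smul_right, h.vw]
  module

theorem neg_Refl {e u : E} (h : Orth e u) {x : E} (hx : InPl e u x) : -x = Refl e (Refl u x) := by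
  have h1 := refl_Pl h x
  rw [h.refl_eq.2 hx] at h1
  nth_rewrite 1 [h1]
  rw [neg_neg]

/-- the projection commutes with isometries that fix the complement -/
theorem star_comm {F : Submodule ℝ E} {g : E ≃ₗᵢ[ℝ] E} (hg : ∀ x ∈ Fᗮ, g x = x) (x : E) :
    F.starProjection (g x) = g (F.starProjection x) := by
  refine Submodule.eq_starProjection_of_mem_of_inner_eq_zero ?_ ?_
  · have h1 : g (F.starProjection x) ∈ Fᗮᗮ := by
      rw [Submodule.mem_orthogonal]
      intro w hw
      have h2 : (inner ℝ w (g (F.starProjection x)) : ℝ) =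
          inner ℝ (g w) (g (F.starProjection x)) := by rw [hg w hw]
      rw [h2, g.inner_map_map]
      exact Submodule.inner_left_of_mem_orthogonal (F.starProjection_apply_mem x) hw
    rwa [Submodule.orthogonal_orthogonal] at h1
  · intro w hw
    rw [← map_sub, hg _ (F.sub_starProjection_mem_orthogonal x)]
    exact Submodule.inner_left_of_mem_orthogonal hw (F.sub_starProjection_mem_orthogonal x)

/-- the projection commutes with isometries that fix the subspace -/
theorem star_comm' {F : Submodule ℝ E} {g : E ≃ₗᵢ[ℝ] E} (hg : ∀ x ∈ F, g x = x) (x : E) :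
    F.starProjection (g x) = g (F.starProjection x) := by
  rw [hg _ (F.starProjection_apply_mem x)]
  refine Submodule.eq_starProjection_of_mem_of_inner_eq_zero (F.starProjection_apply_mem x) ?_
  intro w hw
  have h1 : (inner ℝ (g x) w : ℝ) = inner ℝ x w := by
    conv_lhs => rw [← hg w hw]
    exact g.inner_map_map _ _
  rw [inner_sub_left, h1, ← inner_sub_left]
  exact Submodule.inner_left_of_mem_orthogonal hw (F.sub_starProjection_mem_orthogonal x)

theorem wf_map {P : E →L[ℝ] E} {g : E ≃ₗᵢ[ℝ] E} (hg : ∀ x, P (g x) = g (P x)) (z : E × E) :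
    wf P (g z.1, g z.2) = wf P z := by
  unfold wf
  simp only [hg, LinearIsometryEquiv.norm_map, LinearIsometryEquiv.inner_map_map]

theorem wf_slice {P : E →L[ℝ] E} {e u : E} (h : Orth e u) (hPe : P e = 0) (hPu : P u = u)
    {z : E × E} (hz : InT e u z) : wf P z = 2 * wt e z ^ 2 - 1 := by
  have h1 := h.wt_rel hz
  have hPz1 : P z.1 = (inner ℝ u z.1 : ℝ) • u := by
    conv_lhs => rw [hz.p1]
    rw [map_add, map_smul, map_smul, hPe, hPu, smul_zero, zero_add]
  have hPz2 : P z.2 = (inner ℝ u z.2 : ℝ) • u := by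
    conv_lhs => rw [hz.p2]
    rw [map_add, map_smul, map_smul, hPe, hPu, smul_zero, zero_add]
  have hsq : 0 < 1 + ‖z.2‖ ^ 2 := by positivity
  have hs2 : √(1 + ‖z.2‖ ^ 2) ^ 2 = 1 + ‖z.2‖ ^ 2 := Real.sq_sqrt hsq.le
  have hs2' : ((√(1 + ‖z.2‖ ^ 2) : ℝ) : ℂ) ^ 2 = 1 + (‖z.2‖ : ℂ) ^ 2 := by exact_mod_cast hs2
  have hw : wf P z = 1 - 2 * wt u z ^ 2 := by
    unfold wf wt
    rw [hPz1, hPz2, norm_smul, norm_smul, h.w1, inner_smul_left, inner_smul_right, h.ww, mul_one,
      mul_one, Real.norm_eq_abs, Real.norm_eq_abs, sq_abs, sq_abs]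
    simp only [conj_trivial]
    push_cast
    linear_combination (2 * (inner ℝ u z.1 : ℂ) ^ 2) * hs2' +
      (2 * (inner ℝ u z.2 : ℂ) ^ 2) * Complex.I_sq
  rw [hw]
  linear_combination -2 * h1

theorem inPl_map2 {e u : E} (g : E ≃ₗᵢ[ℝ] E) {x : E} (hx : InPl e u x) :
    InPl (g e) (g u) (g x) := by
  unfold InPl at *
  rw [g.inner_map_map, g.inner_map_map]
  conv_lhs => rw [hx]
  rw [map_add, map_smul, map_smul]

end Vale.Agent.P220.R2.H562
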